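import Vale.Agent.P284.H10.S4j

/-!
# P284 (helper224), (D2): the abstract topological part
-/

open scoped Topology
open Filter Set Metric

noncomputable section

namespace Vale.Agent.P284.H224

open Vale.Agent.P272.K Vale.Agent.P284.H894.W Vale.Agent.P284.H10

section
variable {E : Type} [TopologicalSpace E] {q : ℕ} {F : E → Cm q} {Γ : Type} [Group Γ] [MulAction Γ E]
  {K : Subgroup Γ} {R : Set (Cm q)}

/-- `y` and `y'` lie in the same component of `F⁻¹(O)`. -/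
def Rel (F : E → Cm q) (O : Set (Cm q)) (y y' : E) : Prop :=
  y' ∈ connectedComponentIn (F ⁻¹' O) y

theorem rel_of {O : Set (Cm q)} {C : Set E} (hC : IsPreconnected C) {y y' : E} (hy : y ∈ C)
    (hy' : y' ∈ C) (h : ∀ x ∈ C, F x ∈ O) : Rel F O y y' :=
  hC.subset_connectedComponentIn hy h hy'

theorem Rel.mem {O : Set (Cm q)} {y y' : E} (h : Rel F O y y') : F y' ∈ O :=
  connectedComponentIn_subset (F ⁻¹' O) y h

theorem Rel.mem_left {O : Set (Cm q)} {y y' : E} (h : Rel F O y y') : F y ∈ O := by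
  by_contra h1
  have h2 : connectedComponentIn (F ⁻¹' O) y = ∅ := connectedComponentIn_eq_empty h1
  unfold Rel at h
  rw [h2] at h
  exact h

theorem Rel.refl {O : Set (Cm q)} {y : E} (h : F y ∈ O) : Rel F O y y :=
  mem_connectedComponentIn h

theorem Rel.symm {O : Set (Cm q)} {y y' : E} (h : Rel F O y y') : Rel F O y' y := by
  have h1 := h.mem_left
  have h2 : connectedComponentIn (F ⁻¹' O) y = connectedComponentIn (F ⁻¹' O) y' :=
    connectedComponentIn_eq h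
  unfold Rel
  rw [← h2]
  exact mem_connectedComponentIn h1

theorem Rel.trans {O : Set (Cm q)} {y y' y'' : E} (h : Rel F O y y') (h' : Rel F O y' y'') :
    Rel F O y y'' := by
  have h2 : connectedComponentIn (F ⁻¹' O) y = connectedComponentIn (F ⁻¹' O) y' :=
    connectedComponentIn_eq h
  unfold Rel
  rw [h2]
  exact h'

theorem Rel.mono {O O' : Set (Cm q)} (hO : O ⊆ O') {y y' : E} (h : Rel F O y y') : Rel F O' y y' :=
  connectedComponentIn_mono y (preimage_mono hO) h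

theorem rel_same {O : Set (Cm q)} {y y' : E} (h : Same F y y') (hy : F y ∈ O) : Rel F O y y' := by
  have h1 : Rel F {F y} y y' := h
  exact h1.mono (singleton_subset_iff.2 hy)

variable (F K R) in
/-- abstract data for (D2) -/
structure TD : Prop where
  cont : Continuous F
  act : ∀ γ : Γ, Continuous fun y : E => γ • y
  inv : ∀ k ∈ K, ∀ y, F (k • y) = F y
  ropen : IsOpen R
  dn : ∀ O : Set (Cm q), IsOpen O → Convex ℝ O → O.Nonempty → (O ∩ R).Nonempty
  dnc : ∀ O : Set (Cm q), IsOpen O → Convex ℝ O → IsPreconnected (O ∩ R)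
  up : ∀ U : Set E, IsOpen U → U.Nonempty → (U ∩ F ⁻¹' R).Nonempty
  upc : ∀ U : Set E, IsOpen U → IsPreconnected U → IsPreconnected (U ∩ F ⁻¹' R)
  opn : ∀ y, F y ∈ R → ∀ U ∈ 𝓝 y, F '' U ∈ 𝓝 (F y)
  coc : ∀ v ∈ R, ∃ B ∈ 𝓝 v, ∃ Q : Set E, IsCompact Q ∧ ∀ y, F y ∈ B → ∃ k ∈ K, k • y ∈ Q
  same : ∀ y y', F y ∈ R → F y' = F y → ∃ U ∈ 𝓝 y, ∃ U' ∈ 𝓝 y', ∀ x ∈ U, ∀ x' ∈ U', F x = F x' →
    (Same F x x' ↔ Same F y y')

theorem rel_smul (hD : TD F K R) {O : Set (Cm q)} {k : Γ} (hk : k ∈ K) {y y' : E}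
    (h : Rel F O y y') : Rel F O (k • y) (k • y') := by
  have h1 : IsPreconnected ((fun y => k • y) '' connectedComponentIn (F ⁻¹' O) y) :=
    isPreconnected_connectedComponentIn.image _ (hD.act k).continuousOn
  refine rel_of h1 ⟨y, mem_connectedComponentIn h.mem_left, rfl⟩ ⟨y', h, rfl⟩ ?_
  rintro _ ⟨z, hz, rfl⟩
  show F (k • z) ∈ O
  rw [hD.inv k hk]
  exact connectedComponentIn_subset (F ⁻¹' O) y hz

variable [LocallyConnectedSpace E]

theorem rel_open (hD : TD F K R) {O : Set (Cm q)} (hO : IsOpen O) (y : E) :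
    IsOpen {y' | Rel F O y y'} :=
  (hO.preimage hD.cont).connectedComponentIn

/-- **(S)** the components of `F⁻¹(O)` are mapped onto the regular values in `O` -/
theorem surj (hD : TD F K R) {O : Set (Cm q)} (hO : IsOpen O) (hOc : IsPreconnected (O ∩ R))
    {y : E} (hy : F y ∈ O) {s : Cm q} (hs : s ∈ O ∩ R) : ∃ z, Rel F O y z ∧ F z = s := by
  set N : Set E := {y' | Rel F O y y'} with hN
  have hNo : IsOpen N := rel_open hD hO y
  set W : Set (Cm q) := F '' (N ∩ F ⁻¹' R) with hW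
  have hWo : IsOpen W := by
    rw [isOpen_iff_mem_nhds]
    rintro _ ⟨z, ⟨hz1, hz2⟩, rfl⟩
    exact hD.opn z hz2 _ ((hNo.inter (hD.ropen.preimage hD.cont)).mem_nhds ⟨hz1, hz2⟩)
  have hWs : W ⊆ O ∩ R := by
    rintro _ ⟨z, ⟨hz1, hz2⟩, rfl⟩
    exact ⟨Rel.mem hz1, hz2⟩
  have hne : (O ∩ R ∩ W).Nonempty := by
    obtain ⟨z, hz⟩ := hD.up N hNo ⟨y, Rel.refl hy⟩
    exact ⟨F z, hWs ⟨z, hz, rfl⟩, z, hz, rfl⟩
  have hcl : closure W ∩ (O ∩ R) ⊆ W := by
    rintro t ⟨ht, htO, htR⟩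
    obtain ⟨B, hB, Q, hQ, hBQ⟩ := hD.coc t htR
    obtain ⟨v, hv, hvt⟩ := mem_closure_iff_seq_limit.1 ht
    choose x hx hxv using hv
    have hk : ∀ j, ∃ k ∈ K, v j ∈ B → k • x j ∈ Q := by
      intro j
      by_cases h : v j ∈ B
      · obtain ⟨k, hk, hk'⟩ := hBQ (x j) (by rw [hxv j]; exact h)
        exact ⟨k, hk, fun _ => hk'⟩
      · exact ⟨1, K.one_mem, fun h' => absurd h' h⟩
    choose k hkK hkQ using hk
    have hev : ∀ᶠ j in atTop, k j • x j ∈ Q := by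
      filter_upwards [hvt.eventually hB] with j hj
      exact hkQ j hj
    obtain ⟨z, hzQ, hz⟩ := hQ (f := map (fun j => k j • x j) atTop) (le_principal_iff.2 hev)
    have hz' : MapClusterPt z atTop (fun j => k j • x j) := hz
    have hzf := mapClusterPt_iff_frequently.1 hz'
    have hFz : F z = t := by
      by_contra hne
      obtain ⟨U, V, hU, hV, h1, h2, h3⟩ := t2_separation hne
      have h4 := hzf (F ⁻¹' U) ((hU.preimage hD.cont).mem_nhds h1)
      have h5 : ∀ᶠ j in atTop, v j ∈ V := hvt.eventually (hV.mem_nhds h2)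
      obtain ⟨j, h6, h7⟩ := (h4.and_eventually h5).exists
      have h8 : F (k j • x j) ∈ U := h6
      rw [hD.inv _ (hkK j), hxv j] at h8
      exact (disjoint_left.1 h3 h8) h7
    have hzO : F z ∈ O := by rw [hFz]; exact htO
    obtain ⟨j, hj⟩ := (hzf _ ((rel_open hD hO z).mem_nhds (Rel.refl hzO))).exists
    have h1 : Rel F O z (k j • x j) := hj
    have h2 : Rel F O ((k j)⁻¹ • z) (x j) := by
      have := rel_smul hD (K.inv_mem (hkK j)) h1
      rwa [inv_smul_smul] at this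
    have h3 : Rel F O y (x j) := (hx j).1
    refine ⟨(k j)⁻¹ • z, ⟨h3.trans h2.symm, ?_⟩, ?_⟩
    · show F ((k j)⁻¹ • z) ∈ R
      rw [hD.inv _ (K.inv_mem (hkK j)), hFz]
      exact htR
    · rw [hD.inv _ (K.inv_mem (hkK j)), hFz]
  obtain ⟨z, hz, hzs⟩ := hOc.subset_of_closure_inter_subset hWo hne hcl hs
  exact ⟨z, hz.1, hzs⟩

variable (F R) in
/-- every component of `F⁻¹(O)` meets the regular fibres over `O` in connected sets -/
def CP (O : Set (Cm q)) : Prop :=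
  ∀ y y', F y' = F y → F y ∈ R → Rel F O y y' → Same F y y'

omit [LocallyConnectedSpace E] in
theorem CP.mono {O O' : Set (Cm q)} (h : CP F R O') (hO : O ⊆ O') : CP F R O :=
  fun y y' h1 h2 h3 => h y y' h1 h2 (h3.mono hO)

/-- **(*)** -/
theorem restr (hD : TD F K R) {O O' : Set (Cm q)} (hO : IsOpen O) (hOc : IsPreconnected (O ∩ R))
    (hne : (O ∩ R).Nonempty) (hOO : O ⊆ O') (hC : CP F R O') {y y' : E} (h : Rel F O' y y')
    (hy : F y ∈ O) (hy' : F y' ∈ O) : Rel F O y y' := by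
  obtain ⟨s, hs⟩ := hne
  obtain ⟨z, hz, hzs⟩ := surj hD hO hOc hy hs
  obtain ⟨z', hz', hzs'⟩ := surj hD hO hOc hy' hs
  have h1 : Rel F O' z z' := ((hz.mono hOO).symm.trans h).trans (hz'.mono hOO)
  have h2 : Same F z z' := hC z z' (by rw [hzs, hzs']) (by rw [hzs]; exact hs.2) h1
  exact (hz.trans (rel_same h2 hz.mem)).trans hz'.symm

/-- one half of the gluing lemma -/
theorem glue_aux (hD : TD F K R) {O₁ O₂ : Set (Cm q)} (hO₁ : IsOpen O₁) (hO₂ : IsOpen O₂)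
    (hc₁ : IsPreconnected (O₁ ∩ R)) (hc : IsPreconnected (O₁ ∩ O₂ ∩ R))
    (hne : (O₁ ∩ O₂ ∩ R).Nonempty) (h₁ : CP F R O₁) (h₂ : CP F R O₂) {y y' : E}
    (hy : F y ∈ O₁) (he : F y' = F y) (hr : F y ∈ R) (h : Rel F (O₁ ∪ O₂) y y') :
    Same F y y' := by
  have hO := hO₁.inter hO₂
  have r₁ : ∀ {z z' : E}, Rel F O₁ z z' → F z ∈ O₁ ∩ O₂ → F z' ∈ O₁ ∩ O₂ → Rel F (O₁ ∩ O₂) z z' :=
    fun h hz hz' => restr hD hO hc hne inter_subset_left h₁ h hz hz'
  have r₂ : ∀ {z z' : E}, Rel F O₂ z z' → F z ∈ O₁ ∩ O₂ → F z' ∈ O₁ ∩ O₂ → Rel F (O₁ ∩ O₂) z z' :=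
    fun h hz hz' => restr hD hO hc hne inter_subset_right h₂ h hz hz'
  obtain ⟨s, hs⟩ := id hne
  obtain ⟨z₀, hz₀, hzs⟩ := surj hD hO₁ hc₁ hy (s := s) ⟨hs.1.1, hs.2⟩
  have hz12 : F z₀ ∈ O₁ ∩ O₂ := by rw [hzs]; exact hs.1
  set A : Set E := {z | Rel F O₁ y z} ∪ {z | Rel F O₂ z₀ z} with hA
  have hAo : IsOpen A := (rel_open hD hO₁ y).union (rel_open hD hO₂ z₀)
  set B : Set E := F ⁻¹' (O₁ ∪ O₂) \ A with hB
  have hBo : IsOpen B := by
    rw [isOpen_iff_mem_nhds]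
    rintro z ⟨hz, hzA⟩
    rcases hz with hz | hz
    · filter_upwards [(rel_open hD hO₁ z).mem_nhds (Rel.refl hz)] with z' hz'
      have hz'' : Rel F O₁ z z' := hz'
      refine ⟨Or.inl hz''.mem, ?_⟩
      rintro (h3 | h3)
      · exact hzA (Or.inl (Rel.trans h3 hz''.symm))
      · have h3' : Rel F O₂ z₀ z' := h3
        have h4 := r₂ h3' hz12 ⟨hz''.mem, h3'.mem⟩
        exact hzA (Or.inl ((hz₀.trans (h4.mono inter_subset_left)).trans hz''.symm))
    · filter_upwards [(rel_open hD hO₂ z).mem_nhds (Rel.refl hz)] with z' hz'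
      have hz'' : Rel F O₂ z z' := hz'
      refine ⟨Or.inr hz''.mem, ?_⟩
      rintro (h3 | h3)
      · have h3' : Rel F O₁ y z' := h3
        have h4 := r₁ (hz₀.symm.trans h3') hz12 ⟨h3'.mem, hz''.mem⟩
        exact hzA (Or.inr ((h4.mono inter_subset_right).trans hz''.symm))
      · exact hzA (Or.inr (Rel.trans h3 hz''.symm))
  have hyA : y' ∈ A := by
    by_contra hyA
    have hpre : IsPreconnected (connectedComponentIn (F ⁻¹' (O₁ ∪ O₂)) y) :=
      isPreconnected_connectedComponentIn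
    obtain ⟨z, -, hz1, hz2⟩ := hpre A B hAo hBo (fun z hz => by
      by_cases hzA : z ∈ A
      · exact Or.inl hzA
      · exact Or.inr ⟨connectedComponentIn_subset _ _ hz, hzA⟩)
      ⟨y, mem_connectedComponentIn (Or.inl hy), Or.inl (Rel.refl hy)⟩
      ⟨y', h, h.mem, hyA⟩
    exact hz2.2 hz1
  rcases hyA with h3 | h3
  · exact h₁ y y' he hr h3
  · have h3' : Rel F O₂ z₀ y' := h3
    have h4 := r₂ h3' hz12 ⟨by rw [he]; exact hy, h3'.mem⟩
    exact h₁ y y' he hr (hz₀.trans (h4.mono inter_subset_left))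

/-- **gluing** -/
theorem glue (hD : TD F K R) {O₁ O₂ : Set (Cm q)} (hO₁ : IsOpen O₁) (hO₂ : IsOpen O₂)
    (hc₁ : IsPreconnected (O₁ ∩ R)) (hc₂ : IsPreconnected (O₂ ∩ R))
    (hc : IsPreconnected (O₁ ∩ O₂ ∩ R))
    (hne : (O₁ ∩ O₂ ∩ R).Nonempty) (h₁ : CP F R O₁) (h₂ : CP F R O₂) : CP F R (O₁ ∪ O₂) := by
  intro y y' he hr h
  rcases h.mem_left with h3 | h3
  · exact glue_aux hD hO₁ hO₂ hc₁ hc hne h₁ h₂ h3 he hr h
  · rw [union_comm] at h
    rw [inter_comm O₁] at hc hne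
    exact glue_aux hD hO₂ hO₁ hc₂ hc hne h₂ h₁ h3 he hr h

/-- near a value with a section -/
theorem key_ball (hD : TD F K R) {t : Cm q} {r : ℝ} {σ : Cm q → E}
    (hσ : ContinuousOn σ (ball t r)) (hσF : ∀ s ∈ ball t r, F (σ s) = s) {y : E}
    (hy : Rel F (ball t r) (σ t) y) (hyR : F y ∈ R) : Same F y (σ (F y)) := by
  rcases le_or_gt r 0 with hr | hr
  · rw [ball_eq_empty.2 hr] at hy
    exact hy.mem.elim
  have ht : t ∈ ball t r := mem_ball_self hr
  set N : Set E := {z | Rel F (ball t r) (σ t) z} with hN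
  have hNo : IsOpen N := rel_open hD isOpen_ball _
  have hσN : ∀ s ∈ ball t r, σ s ∈ N := by
    intro s hs
    have h2 : IsPreconnected (σ '' ball t r) :=
      (convex_ball t r).isPreconnected.image _ hσ
    refine rel_of h2 ⟨t, ht, rfl⟩ ⟨s, hs, rfl⟩ ?_
    rintro _ ⟨s', hs', rfl⟩
    rw [hσF s' hs']
    exact hs'
  have hNpre : IsPreconnected (N ∩ F ⁻¹' R) :=
    hD.upc N hNo isPreconnected_connectedComponentIn
  have hloc : ∀ y ∈ N ∩ F ⁻¹' R, ∀ᶠ y' in 𝓝 y, (y' ∈ N ∩ F ⁻¹' R) ∧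
      (Same F y' (σ (F y')) ↔ Same F y (σ (F y))) := by
    rintro y ⟨hyN, hyR⟩
    have hyB : F y ∈ ball t r := Rel.mem hyN
    obtain ⟨U, hU, U', hU', hUU⟩ := hD.same y (σ (F y)) hyR (hσF _ hyB)
    have h3 : ∀ᶠ y' in 𝓝 y, σ (F y') ∈ U' := by
      have h4 : ContinuousAt (fun y' => σ (F y')) y :=
        (hσ.continuousAt (isOpen_ball.mem_nhds hyB)).comp hD.cont.continuousAt
      exact h4 hU'
    filter_upwards [hU, h3, (hNo.inter (hD.ropen.preimage hD.cont)).mem_nhds ⟨hyN, hyR⟩]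
      with y' h4 h5 h6
    exact ⟨h6, hUU y' h4 _ h5 (hσF _ (Rel.mem h6.1)).symm⟩
  set A : Set E := {y | y ∈ N ∩ F ⁻¹' R ∧ Same F y (σ (F y))} with hA
  set B : Set E := {y | y ∈ N ∩ F ⁻¹' R ∧ ¬ Same F y (σ (F y))} with hB
  have hAo : IsOpen A := by
    rw [isOpen_iff_mem_nhds]
    rintro y ⟨hy, hy'⟩
    filter_upwards [hloc y hy] with y' h4
    exact ⟨h4.1, h4.2.2 hy'⟩
  have hBo : IsOpen B := by
    rw [isOpen_iff_mem_nhds]
    rintro y ⟨hy, hy'⟩
    filter_upwards [hloc y hy] with y' h4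
    exact ⟨h4.1, fun h5 => hy' (h4.2.1 h5)⟩
  by_contra hcon
  obtain ⟨s, hs, hsR⟩ := hD.dn (ball t r) isOpen_ball (convex_ball t r) ⟨t, ht⟩
  have hσs : σ s ∈ N ∩ F ⁻¹' R := ⟨hσN s hs, by
    show F (σ s) ∈ R
    rw [hσF s hs]; exact hsR⟩
  obtain ⟨z, -, hz1, hz2⟩ := hNpre A B hAo hBo (fun z hz => by
    by_cases h3 : Same F z (σ (F z))
    · exact Or.inl ⟨hz, h3⟩
    · exact Or.inr ⟨hz, h3⟩)
    ⟨σ s, hσs, hσs, by rw [hσF s hs]; exact same_refl _⟩ ⟨y, ⟨hy, hyR⟩, ⟨hy, hyR⟩, hcon⟩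
  exact hz2.2 hz1.2

omit [LocallyConnectedSpace E] in
theorem sec_rel {t : Cm q} {r : ℝ} {σ : Cm q → E}
    (hσ : ContinuousOn σ (ball t r)) (hσF : ∀ s ∈ ball t r, F (σ s) = s) {s : Cm q}
    (hs : s ∈ ball t r) : Rel F (ball t r) (σ t) (σ s) := by
  have hr : 0 < r := dist_nonneg.trans_lt hs
  have h2 : IsPreconnected (σ '' ball t r) :=
    (convex_ball t r).isPreconnected.image _ hσ
  refine rel_of h2 ⟨t, mem_ball_self hr, rfl⟩ ⟨s, hs, rfl⟩ ?_
  rintro _ ⟨s', hs', rfl⟩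
  rw [hσF s' hs']
  exact hs'

/-- local form: near a value with a section -/
theorem cp_ball (hD : TD F K R)
    (h1 : ∀ y y' : E, F y' = F y → F y ∈ R → ∃ g ∈ K, Same F (g • y) y')
    {t : Cm q} {r : ℝ} {σ : Cm q → E} (hσ : ContinuousOn σ (ball t r))
    (hσF : ∀ s ∈ ball t r, F (σ s) = s) : CP F R (ball t r) := by
  intro y y' he hr' h
  have hyB : F y ∈ ball t r := h.mem_left
  obtain ⟨k, hk, hks⟩ := h1 y (σ (F y)) (hσF _ hyB) hr'
  have h3 : Rel F (ball t r) (σ t) (k • y) := by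
    have h4 : Rel F (ball t r) (k • y) (σ (F y)) := rel_same hks (by rw [hD.inv k hk]; exact hyB)
    exact (sec_rel hσ hσF hyB).trans h4.symm
  have h4 : Rel F (ball t r) (σ t) (k • y') := h3.trans (rel_smul hD hk h)
  have h5 := key_ball hD hσ hσF h3 (by rw [hD.inv k hk]; exact hr')
  have h6 := key_ball hD hσ hσF h4 (by rw [hD.inv k hk, he]; exact hr')
  rw [hD.inv k hk] at h5 h6
  rw [he] at h6
  have h7 := same_trans h5 (same_symm h6)
  have h8 := same_smul hD.act hD.inv (K.inv_mem hk) h7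
  rwa [inv_smul_smul, inv_smul_smul] at h8

variable (F R) in
/-- the set of the points which can be reached from `t₀` inside a convex set with the property `CP` -/
def Om (O : Set (Cm q)) (t₀ : Cm q) : Set (Cm q) :=
  {t | ∃ O' : Set (Cm q), IsOpen O' ∧ Convex ℝ O' ∧ O' ⊆ O ∧ t₀ ∈ O' ∧ t ∈ O' ∧ CP F R O'}

omit [LocallyConnectedSpace E] in
theorem om_open {O : Set (Cm q)} {t₀ : Cm q} : IsOpen (Om F R O t₀) := by
  rw [isOpen_iff_mem_nhds]
  rintro t ⟨O', h1, h2, h3, h4, h5, h6⟩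
  filter_upwards [h1.mem_nhds h5] with t' ht'
  exact ⟨O', h1, h2, h3, h4, ht', h6⟩

omit [LocallyConnectedSpace E] in
theorem om_sub {O : Set (Cm q)} {t₀ : Cm q} : Om F R O t₀ ⊆ O := by
  rintro t ⟨O', h1, h2, h3, h4, h5, h6⟩
  exact h3 h5

/-- if `F⁻¹(Om)` is connected, the regular fibres over `Om` are connected -/
theorem om_same (hD : TD F K R) {O : Set (Cm q)} {t₀ : Cm q} (hpre : IsPreconnected (F ⁻¹' Om F R O t₀))
    {y₀ : E} (hy₀ : F y₀ = t₀) (ht₀ : t₀ ∈ Om F R O t₀) {y y' : E} (he : F y' = F y)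
    (hy : F y ∈ Om F R O t₀) (hr : F y ∈ R) : Same F y y' := by
  -- independence of the convex set
  have indep : ∀ {O₁ O₂ : Set (Cm q)}, IsOpen O₁ → Convex ℝ O₁ → t₀ ∈ O₁ → CP F R O₁ →
      IsOpen O₂ → Convex ℝ O₂ → t₀ ∈ O₂ → ∀ {z : E}, F z ∈ O₂ → Rel F O₁ y₀ z → Rel F O₂ y₀ z := by
    intro O₁ O₂ a1 a2 a3 a4 b1 b2 b3 z hz h
    have h2 : Rel F (O₁ ∩ O₂) y₀ z := restr hD (a1.inter b1) (hD.dnc _ (a1.inter b1) (a2.inter b2))
      (hD.dn _ (a1.inter b1) (a2.inter b2) ⟨t₀, a3, b3⟩) inter_subset_left a4 h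
      ⟨by rw [hy₀]; exact a3, by rw [hy₀]; exact b3⟩ ⟨h.mem, hz⟩
    exact h2.mono inter_subset_right
  set A : Set E := {z | ∃ O' : Set (Cm q), IsOpen O' ∧ Convex ℝ O' ∧ O' ⊆ O ∧ t₀ ∈ O' ∧
    CP F R O' ∧ Rel F O' y₀ z} with hA
  have hAo : IsOpen A := by
    rw [isOpen_iff_mem_nhds]
    rintro z ⟨O', h1, h2, h3, h4, h5, h6⟩
    filter_upwards [(rel_open hD h1 y₀).mem_nhds h6] with z' hz'
    exact ⟨O', h1, h2, h3, h4, h5, hz'⟩
  set B : Set E := F ⁻¹' Om F R O t₀ \ A with hB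
  have hBo : IsOpen B := by
    rw [isOpen_iff_mem_nhds]
    rintro z ⟨⟨O', h1, h2, h3, h4, h5, h6⟩, hzA⟩
    filter_upwards [(rel_open hD h1 z).mem_nhds (Rel.refl h5)] with z' hz'
    have hz'' : Rel F O' z z' := hz'
    refine ⟨⟨O', h1, h2, h3, h4, hz''.mem, h6⟩, ?_⟩
    rintro ⟨O'', b1, b2, b3, b4, b5, b6⟩
    have h7 := indep b1 b2 b4 b5 h1 h2 h4 hz''.mem b6
    exact hzA ⟨O', h1, h2, h3, h4, h6, h7.trans hz''.symm⟩
  have hall : F ⁻¹' Om F R O t₀ ⊆ A := by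
    intro z hz
    by_contra hzA
    obtain ⟨O', h1, h2, h3, h4, h5, h6⟩ := id ht₀
    obtain ⟨x, -, hx1, hx2⟩ := hpre A B hAo hBo (fun x hx => by
      by_cases h3 : x ∈ A
      · exact Or.inl h3
      · exact Or.inr ⟨hx, h3⟩)
      ⟨y₀, by rw [mem_preimage, hy₀]; exact ht₀, O', h1, h2, h3, h4, h6,
        Rel.refl (by rw [hy₀]; exact h4)⟩ ⟨z, hz, hz, hzA⟩
    exact hx2.2 hx1
  obtain ⟨O₁, a1, a2, a3, a4, a5, a6⟩ := hall hy
  obtain ⟨O₂, b1, b2, b3, b4, b5, b6⟩ := hall (show F y' ∈ Om F R O t₀ by rw [he]; exact hy)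
  have h7 := indep b1 b2 b4 b5 a1 a2 a4 (by rw [he]; exact a6.mem) b6
  exact a5 y y' he hr (a6.symm.trans h7)

/-- a segment from `t₀` along which `CP` holds locally stays in `Om` -/
theorem om_seg (hD : TD F K R) {O : Set (Cm q)} {t₀ t : Cm q}
    (hS : ∀ b ∈ Icc (0 : ℝ) 1, ∃ r > 0, ball (t₀ + b • (t - t₀)) r ⊆ O ∧
      CP F R (ball (t₀ + b • (t - t₀)) r)) : t ∈ Om F R O t₀ := by
  set γ : ℝ → Cm q := fun b => t₀ + b • (t - t₀) with hγ
  have hγc : Continuous γ := by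
    show Continuous fun b : ℝ => t₀ + b • (t - t₀)
    fun_prop
  have hγ0 : γ 0 = t₀ := by simp [hγ]
  have hγ1 : γ 1 = t := by simp [hγ]
  -- between
  have hbt : ∀ {O' : Set (Cm q)}, Convex ℝ O' → t₀ ∈ O' → ∀ {a b : ℝ}, 0 ≤ a → a ≤ b →
      γ b ∈ O' → γ a ∈ O' := by
    intro O' hc h0 a b ha hab hb
    rcases eq_or_lt_of_le (ha.trans hab) with h | h
    · have : a = 0 := le_antisymm (by rw [h]; exact hab) ha
      rw [this, hγ0]; exact h0
    · have h1 := hc h0 hb (a := 1 - a / b) (b := a / b) (by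
        rw [sub_nonneg]; exact div_le_one_of_le₀ hab h.le) (by positivity) (by ring)
      have h2 : (1 - a / b) • t₀ + (a / b) • γ b = γ a := by
        show (1 - a / b) • t₀ + (a / b) • (t₀ + b • (t - t₀)) = t₀ + a • (t - t₀)
        rw [smul_add, smul_smul, div_mul_cancel₀ _ h.ne', sub_smul, one_smul]
        abel
      rwa [h2] at h1
  set I : Set ℝ := {b | γ b ∈ Om F R O t₀} with hI
  have h0 : (0 : ℝ) ∈ I := by
    obtain ⟨r, hr, h1, h2⟩ := hS 0 (by simp)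
    rw [zero_smul, add_zero] at h1 h2
    exact ⟨ball t₀ r, isOpen_ball, convex_ball _ _, h1, mem_ball_self hr,
      by rw [hγ0]; exact mem_ball_self hr, h2⟩
  have hIo : IsOpen I := om_open.preimage hγc
  have hcl : IsClosed (I ∩ Icc 0 1) := by
    rw [← closure_subset_iff_isClosed]
    intro b hb
    have hb01 : b ∈ Icc (0 : ℝ) 1 := by
      have := closure_mono (inter_subset_right (s := I)) hb
      rwa [isClosed_Icc.closure_eq] at this
    refine ⟨?_, hb01⟩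
    obtain ⟨r, hr, h1, h2⟩ := hS b hb01
    have h1' : ball (γ b) r ⊆ O := h1
    have h2' : CP F R (ball (γ b) r) := h2
    obtain ⟨a, ha1, ha2, ha3⟩ := mem_closure_iff.1 hb (γ ⁻¹' ball (γ b) r)
      (isOpen_ball.preimage hγc) (mem_ball_self hr)
    obtain ⟨O', c1, c2, c3, c4, c5, c6⟩ := ha2
    rcases le_total b a with hba | hab
    · exact ⟨O', c1, c2, c3, c4, hbt c2 c4 hb01.1 hba c5, c6⟩
    · -- `[t₀, γ b] ⊆ O' ∪ ball`
      have h3 : CP F R (O' ∪ ball (γ b) r) := by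
        have hc := c2.inter (convex_ball (γ b) r)
        have ho := c1.inter (isOpen_ball (x := γ b) (ε := r))
        exact glue hD c1 isOpen_ball (hD.dnc _ c1 c2) (hD.dnc _ isOpen_ball (convex_ball _ _))
          (hD.dnc _ ho hc) (hD.dn _ ho hc ⟨γ a, c5, ha1⟩) c6 h2'
      have h4 : segment ℝ t₀ (γ b) ⊆ O' ∪ ball (γ b) r := by
        rintro _ ⟨u, v, hu, hv, huv, rfl⟩
        have h5 : u • t₀ + v • γ b = γ (v * b) := by
          show u • t₀ + v • (t₀ + b • (t - t₀)) = t₀ + (v * b) • (t - t₀)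
          have : u = 1 - v := by linarith
          rw [this, smul_add, smul_smul, sub_smul, one_smul]
          abel
        rw [h5]
        rcases le_total (v * b) a with h6 | h6
        · exact Or.inl (hbt c2 c4 (mul_nonneg hv hb01.1) h6 c5)
        · refine Or.inr ?_
          have h7 : v * b ≤ b := by nlinarith [hb01.1]
          -- `γ (v b)` between `γ a` and `γ b`
          have h8 : dist (γ (v * b)) (γ b) ≤ dist (γ a) (γ b) := by
            have e1 : ∀ x : ℝ, γ x - γ b = (x - b) • (t - t₀) := by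
              intro x
              show t₀ + x • (t - t₀) - (t₀ + b • (t - t₀)) = _
              rw [sub_smul]; abel
            rw [dist_eq_norm, dist_eq_norm, e1, e1, norm_smul, norm_smul]
            refine mul_le_mul_of_nonneg_right ?_ (norm_nonneg _)
            rw [Real.norm_eq_abs, Real.norm_eq_abs, abs_of_nonpos (by linarith),
              abs_of_nonpos (by linarith)]
            linarith
          exact lt_of_le_of_lt h8 ha1
      have hcomp : IsCompact (segment ℝ t₀ (γ b)) := by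
        rw [segment_eq_image_lineMap]
        exact isCompact_Icc.image (AffineMap.lineMap_continuous)
      obtain ⟨δ, hδ, h5⟩ := hcomp.exists_thickening_subset_open (c1.union isOpen_ball) h4
      refine ⟨thickening δ (segment ℝ t₀ (γ b)), isOpen_thickening,
        (convex_segment _ _).thickening δ, h5.trans (union_subset c3 h1'),
        self_subset_thickening hδ _ (left_mem_segment ℝ _ _),
        self_subset_thickening hδ _ (right_mem_segment ℝ _ _), h3.mono h5⟩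
  have h1 := hcl.Icc_subset_of_forall_mem_nhdsWithin h0 (fun x hx =>
    mem_nhdsWithin_of_mem_nhds (hIo.mem_nhds hx.1))
  have h2 : (1 : ℝ) ∈ I := h1 (by simp)
  have h3 : γ 1 ∈ Om F R O t₀ := h2
  rwa [hγ1] at h3

/-- if one regular fibre is connected, all are -/
theorem all_of_one (hD : TD F K R) (hR : IsPreconnected R)
    (hsec : ∀ y : E, F y ∈ R → ∃ r > 0, ∃ σ : Cm q → E, ContinuousOn σ (ball (F y) r) ∧
      σ (F y) = y ∧ ∀ s ∈ ball (F y) r, F (σ s) = s) {t₀ : Cm q} (ht₀ : t₀ ∈ R) {y₀ : E}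
    (h0 : ∀ y y', F y = t₀ → F y' = t₀ → Same F y y') {y y' : E} (hy : F y ∈ R)
    (he : F y' = F y) : Same F y y' := by
  -- the set of values with connected fibre is clopen in `R`
  set A : Set (Cm q) := {t | t ∈ R ∧ ∀ y y', F y = t → F y' = t → Same F y y'} with hA
  set B : Set (Cm q) := {t | t ∈ R ∧ ¬ ∀ y y', F y = t → F y' = t → Same F y y'} with hB
  have hBo : IsOpen B := by
    rw [isOpen_iff_mem_nhds]
    rintro t ⟨ht, hns⟩
    push Not at hns
    obtain ⟨z, z', hz, hz', hn⟩ := hns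
    obtain ⟨U, hU, U', hU', hUU⟩ := hD.same z z' (by rw [hz]; exact ht) (by rw [hz, hz'])
    have h1 := hD.opn z (by rw [hz]; exact ht) U hU
    have h2 := hD.opn z' (by rw [hz']; exact ht) U' hU'
    rw [hz] at h1
    rw [hz'] at h2
    filter_upwards [h1, h2, hD.ropen.mem_nhds ht] with s hs hs' hsR
    obtain ⟨x, hx, rfl⟩ := hs
    obtain ⟨x', hx', hxx⟩ := hs'
    exact ⟨hsR, fun h => hn ((hUU x hx x' hx' hxx.symm).1 (h x x' rfl hxx))⟩
  have hAo : IsOpen A := by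
    rw [isOpen_iff_mem_nhds]
    rintro t ⟨ht, hs⟩
    -- a point of the fibre
    obtain ⟨z, -, hz⟩ := surj hD isOpen_univ (by simpa using hR) (y := y₀) (mem_univ _)
      (s := t) ⟨mem_univ _, ht⟩
    obtain ⟨r₁, hr₁, σ, hσ, hσz, hσF⟩ := hsec z (by rw [hz]; exact ht)
    rw [hz] at hσ hσz hσF
    obtain ⟨r₂, hr₂, hb⟩ := Metric.isOpen_iff.1 hD.ropen t ht
    set r := min r₁ r₂ with hr
    have hr0 : 0 < r := lt_min hr₁ hr₂
    have hσ' : ContinuousOn σ (ball t r) := hσ.mono (ball_subset_ball (min_le_left _ _))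
    have hσF' : ∀ s ∈ ball t r, F (σ s) = s := fun s hs =>
      hσF s (ball_subset_ball (min_le_left _ _) hs)
    have hbR : ball t r ⊆ R := (ball_subset_ball (min_le_right _ _)).trans hb
    -- `F⁻¹(ball)` is connected
    have hrel : ∀ x, F x ∈ ball t r → Rel F (ball t r) (σ t) x := by
      intro x hx
      obtain ⟨x', hx', hxt⟩ := surj hD isOpen_ball (hD.dnc _ isOpen_ball (convex_ball t r)) hx
        (s := t) ⟨mem_ball_self hr0, ht⟩
      have h1 : Same F (σ t) x' := hs _ _ (by rw [hσz, hz]) hxt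
      exact (rel_same h1 (by rw [hσF' t (mem_ball_self hr0)]; exact mem_ball_self hr0)).trans
        hx'.symm
    filter_upwards [ball_mem_nhds t hr0] with s hsb
    refine ⟨hbR hsb, fun x x' hx hx' => ?_⟩
    have h1 := key_ball hD hσ' hσF' (hrel x (by rw [hx]; exact hsb)) (by rw [hx]; exact hbR hsb)
    have h2 := key_ball hD hσ' hσF' (hrel x' (by rw [hx']; exact hsb)) (by rw [hx']; exact hbR hsb)
    rw [hx] at h1
    rw [hx'] at h2
    exact same_trans h1 (same_symm h2)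
  by_contra hcon
  obtain ⟨s, -, hs1, hs2⟩ := hR A B hAo hBo (fun s hs => by
    by_cases h3 : ∀ y y', F y = s → F y' = s → Same F y y'
    · exact Or.inl ⟨hs, h3⟩
    · exact Or.inr ⟨hs, h3⟩)
    ⟨t₀, ht₀, ht₀, h0⟩ ⟨F y, hy, hy, fun h => hcon (h y y' rfl he)⟩
  exact hs2.2 hs1.2

/-- if the regular fibres are connected, preimages of convex open sets are preconnected -/
theorem pre_conv (hD : TD F K R) (h : ∀ y y' : E, F y ∈ R → F y' = F y → Same F y y')
    {O : Set (Cm q)} (hO : IsOpen O) (hc : Convex ℝ O) : IsPreconnected (F ⁻¹' O) := by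
  refine isPreconnected_of_forall_pair fun x hx y hy => ?_
  obtain ⟨s, hs⟩ := hD.dn O hO hc ⟨F x, hx⟩
  obtain ⟨z, hz, hzs⟩ := surj hD hO (hD.dnc O hO hc) hx hs
  obtain ⟨z', hz', hzs'⟩ := surj hD hO (hD.dnc O hO hc) hy hs
  have h1 : Same F z z' := h z z' (by rw [hzs]; exact hs.2) (by rw [hzs, hzs'])
  have h2 : Rel F O x y := (hz.trans (rel_same h1 hz.mem)).trans hz'.symm
  exact ⟨_, connectedComponentIn_subset _ _, mem_connectedComponentIn hx, h2,
    isPreconnected_connectedComponentIn⟩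

end

end Vale.Agent.P284.H224
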