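import Vale.Agent.P284.H224.Base
import Vale.Agent.P284.H224.Abs

/-!
# P284 (helper224), (D2): topology of the fibres, proofs
-/

open scoped Manifold ContDiff Topology
open Filter Set Metric

noncomputable section

namespace Vale.Agent.P284.H224

open Vale.Agent.P272.K Vale.Agent.P284.H894.G Vale.Agent.P284.H894.W Vale.Agent.P284.H494
  Vale.Agent.P284.H10

theorem diff_compl' {α : Type*} (O R : Set α) : O \ Rᶜ = O ∩ R := by
  ext x; simp

section
variable {n : ℕ} {X : Type} [TopologicalSpace X] [ChartedSpace (Cm n) X] {E : Type}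
  [TopologicalSpace E] {p : E → X} {Γ : Type} [Group Γ] [MulAction Γ E]
  {w : Chart n X → Cm n → Matrix (Fin n) (Fin n) ℂ} {q : ℕ} {F : E → Cm q} {c : Γ → Cm q}
  [IsManifold 𝓘(ℂ, Cm n) ω X]

omit [IsManifold 𝓘(ℂ, Cm n) ω X] in
theorem same_loc [T2Space X] [CompactSpace X] [Nonempty E] (hp : IsGalois Γ p) (hA : Per p w F c)
    (y y' : E) (hy : F y ∈ RV n p F) (hy' : F y' = F y) :
    ∃ U ∈ 𝓝 y, ∃ U' ∈ 𝓝 y', ∀ x ∈ U, ∀ x' ∈ U', F x = F x' → (Same F x x' ↔ Same F y y') := by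
  have hT2 : T2Space E := H35.S4.t2_of_cov hp.cov
  obtain ⟨B, hB⟩ := hA.hol
  have hFc := per_cont hp.cov hA
  have h1 : ∀ z, F z = F y → ∀ O ∈ 𝓝 z, ∃ W, IsOpen W ∧ z ∈ W ∧ W ⊆ O ∧
      ∀ v, IsPreconnected (W ∩ F ⁻¹' {v}) := fun z hz O hO => H35.S4.box_E hp.cov hB (hy z hz) O hO
  have h2 : ∀ z, F z = F y → ∀ U ∈ 𝓝 z, F '' U ∈ 𝓝 (F y) := fun z hz U hU => by
    rw [← hz]
    exact H35.S4.open_E hp.cov hB (hy z hz) U hU
  by_cases hs : Same F y y'
  · obtain ⟨U, hU, U', hU', h⟩ := H35.S4.fwd hFc h1 h2 rfl hs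
    exact ⟨U, hU, U', hU', fun x hx x' hx' he => ⟨fun _ => hs, fun _ => h x hx x' hx' he⟩⟩
  · have h4 : ∃ B ∈ 𝓝 (F y), ∃ Q : Set E, IsCompact Q ∧
        ∀ z, F z ∈ B → ∃ k ∈ ker hA, k • z ∈ Q := by
      obtain ⟨C, hC, hcov⟩ := per_compact hp hA (‖F y‖ + 1)
      refine ⟨ball (F y) 1, ball_mem_nhds _ one_pos, C, hC, fun z hz => hcov z ?_⟩
      have := mem_ball_iff_norm.1 hz
      calc ‖F z‖ = ‖F y + (F z - F y)‖ := by congr 1; abel
        _ ≤ ‖F y‖ + ‖F z - F y‖ := norm_add_le _ _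
        _ ≤ _ := by linarith
    obtain ⟨U, hU, U', hU', h⟩ := H35.S4.bwd hFc hp.cont (fun k hk y => ker_smul hA hk y) h1
      (H35.S4.exists_cpt (p := p) n hp.cov) h4 (H35.S4.proper_disc (Γ := Γ) hp) rfl hy'
    exact ⟨U, hU, U', hU', fun x hx x' hx' he => ⟨fun h' => h x hx x' hx' h', fun h' => absurd h' hs⟩⟩

theorem td [T2Space X] [CompactSpace X] [ConnectedSpace E] (hN : 1 ≤ q) (hp : IsGalois Γ p)
    (hA : Per p w F c) (hex : ∃ y, Reg (n := n) p F y) : TD F (ker hA) (RV n p F) := by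
  obtain ⟨B, hB⟩ := hA.hol
  have hcov := rv_cov hN hp hA
  have hq : q - 1 + 1 ≤ Module.finrank ℂ (Cm q) := by
    simp; omega
  refine ⟨per_cont hp.cov hA, hp.cont, fun k hk y => ker_smul hA hk y, rv_open hp hA, ?_, ?_, ?_,
    ?_, ?_, ?_, ?_⟩
  · intro O hO _ hne
    have := nonempty_diff (hcov.mono inter_subset_left) hq hO hne
    rwa [diff_compl'] at this
  · intro O hO hc
    have := preconn_diff (hcov.mono inter_subset_left) hq hO hc
    rwa [diff_compl'] at this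
  · intro U hU hne
    have := (removal hN hp.cov hB hex hcov hU).1 hne
    rwa [preimage_compl, diff_compl'] at this
  · intro U hU hne
    have := (removal hN hp.cov hB hex hcov hU).2 hne
    rwa [preimage_compl, diff_compl'] at this
  · intro y hy U hU
    exact H35.S4.open_E hp.cov hB (hy y rfl) U hU
  · intro v _
    obtain ⟨C, hC, hcov⟩ := per_compact hp hA (‖v‖ + 1)
    refine ⟨ball v 1, ball_mem_nhds _ one_pos, C, hC, fun z hz => hcov z ?_⟩
    have := mem_ball_iff_norm.1 hz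
    calc ‖F z‖ = ‖v + (F z - v)‖ := by congr 1; abel
      _ ≤ ‖v‖ + ‖F z - v‖ := norm_add_le _ _
      _ ≤ _ := by linarith
  · intro y y' hy hy'
    exact same_loc hp hA y y' hy hy'

theorem conn_of_same {t : Cm q} (hne : (F ⁻¹' {t}).Nonempty)
    (h : ∀ y y', F y = t → F y' = t → Same F y y') : IsConnected (F ⁻¹' {t}) := by
  obtain ⟨y, hy⟩ := hne
  refine ⟨⟨y, hy⟩, ?_⟩
  have hy' : F y = t := hy
  have h1 : F ⁻¹' {t} = connectedComponentIn (F ⁻¹' {F y}) y := by
    refine subset_antisymm (fun z hz => h y z hy hz) ?_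
    rw [hy']
    exact connectedComponentIn_subset _ _
  rw [h1]
  exact isPreconnected_connectedComponentIn

theorem same_of_conn {t : Cm q} (hc : IsConnected (F ⁻¹' {t})) {y y' : E} (hy : F y = t)
    (hy' : F y' = t) : Same F y y' := by
  have h1 : IsPreconnected (F ⁻¹' {F y}) := by rw [hy]; exact hc.isPreconnected
  exact h1.subset_connectedComponentIn (show F y = F y from rfl) subset_rfl
    (show F y' = F y by rw [hy, hy'])

omit [IsManifold 𝓘(ℂ, Cm n) ω X] in
theorem reg_zero {F : E → Cm 0} (y : E) : Reg (n := n) p F y :=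
  fun _ _ _ _ => Function.surjective_to_subsingleton _

theorem conn_zero [ConnectedSpace E] {F : E → Cm 0} (t : Cm 0) : IsConnected (F ⁻¹' {t}) := by
  have : F ⁻¹' {t} = univ := by
    ext y
    simp [Subsingleton.elim (F y) t]
  rw [this]
  exact isConnected_univ

/-- the cone over a `Cov (q-2)` set -/
theorem cov_cone {S : Set (Cm q)} (hq : 2 ≤ q) (hS : Cov (q - 2) S) (t₀ : Cm q) :
    Cov (q - 1) {b | ∃ s ∈ S, ∃ z : ℂ, b = t₀ + z • (s - t₀)} := by
  obtain ⟨G, T, h1, h2⟩ := hS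
  have h4 : {b | ∃ s ∈ S, ∃ z : ℂ, b = t₀ + z • (s - t₀)} ⊆
      ⋃ i, (fun p : (Fin (q - 2) → ℂ) × ℂ => t₀ + p.2 • (G i p.1 - t₀)) '' {p | p.1 ∈ T i} := by
    rintro b ⟨s, hs, z, rfl⟩
    obtain ⟨i, x, hx, rfl⟩ := mem_iUnion.1 (h2 hs)
    exact mem_iUnion.2 ⟨i, (x, z), hx, rfl⟩
  refine Cov.mono (Cov.iUnion fun i => Cov.of_image ?_ ?_) h4
  · rw [Module.finrank_prod]
    simp
    omega
  · rintro ⟨x, z⟩ hx
    have h5 : DifferentiableAt ℂ (fun p : (Fin (q - 2) → ℂ) × ℂ => G i p.1) (x, z) :=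
      (h1 i x hx).comp (x, z) differentiableAt_fst
    have h6 : DifferentiableAt ℂ (fun p : (Fin (q - 2) → ℂ) × ℂ => p.2) (x, z) :=
      differentiableAt_snd
    exact (differentiableAt_const t₀).add (h6.smul (h5.sub_const t₀))

end

/-- **(D2)** -/
theorem topStmt : TopStmt := by
  intro n q X _ _ _ _ _ _ w E Γ _ _ _ _ p hp F c hA hex hone O hO hOc hOne hpre hsm t ht
  rcases Nat.eq_zero_or_pos q with rfl | hq
  · exact conn_zero t
  have hlc : LocallyConnectedSpace E := locConn hp.cov n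
  obtain ⟨B, hB⟩ := hA.hol
  have hD := td hq hp hA hex
  have hRc : IsPreconnected (RV n p F) := by
    have := hD.dnc univ isOpen_univ convex_univ
    simpa using this
  obtain ⟨y₁⟩ : Nonempty E := inferInstance
  have hsurj : ∀ s ∈ RV n p F, ∃ z, F z = s := by
    intro s hs
    obtain ⟨z, -, hz⟩ := surj hD isOpen_univ (by simpa using hRc) (y := y₁) (mem_univ _)
      (s := s) ⟨mem_univ _, hs⟩
    exact ⟨z, hz⟩
  obtain ⟨t₀, ht₀O, ht₀R⟩ := hD.dn O hO hOc hOne
  obtain ⟨y₀, hy₀⟩ := hsurj t₀ ht₀R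
  -- `CP` near the values outside `NR`
  have hloc : ∀ s ∈ O, s ∉ NR n p F → ∃ r > 0, ball s r ⊆ O ∧ CP F (RV n p F) (ball s r) := by
    intro s hsO hs
    have hs' : s ∈ (NR n p F)ᶜ := hs
    rw [nr_compl] at hs'
    obtain ⟨y, hy, rfl⟩ := hs'
    obtain ⟨r₁, hr₁, σ, hσ, -, hσF⟩ := exists_section hp.cov hB hy
    obtain ⟨r₂, hr₂, hb⟩ := Metric.isOpen_iff.1 hO _ hsO
    refine ⟨min r₁ r₂, lt_min hr₁ hr₂, (ball_subset_ball (min_le_right _ _)).trans hb, ?_⟩
    exact cp_ball hD (fun z z' h1 h2 => by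
      obtain ⟨g, hg, hgs⟩ := hone z z' h1 h2
      exact ⟨g, hg, hgs⟩) (hσ.mono (ball_subset_ball (min_le_left _ _)))
      fun s hs => hσF s (ball_subset_ball (min_le_left _ _) hs)
  have hseg : ∀ t ∈ O, (∀ b ∈ Icc (0 : ℝ) 1, t₀ + b • (t - t₀) ∉ NR n p F) →
      t ∈ Om F (RV n p F) O t₀ := by
    intro t ht h
    refine om_seg hD fun b hb => ?_
    refine hloc _ ?_ (h b hb)
    have h1 := hOc ht₀O ht (a := 1 - b) (b := b) (by linarith [hb.2]) hb.1 (by ring)
    have h2 : (1 - b) • t₀ + b • t = t₀ + b • (t - t₀) := by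
      rw [sub_smul, one_smul, smul_sub]; abel
    rwa [h2] at h1
  have ht₀N : t₀ ∉ NR n p F := fun h => h y₀ hy₀ (ht₀R y₀ hy₀)
  have hcone : O \ Om F (RV n p F) O t₀ ⊆
      {b | ∃ s ∈ NR n p F ∩ O, ∃ z : ℂ, b = t₀ + z • (s - t₀)} := by
    rintro t ⟨htO, ht⟩
    by_contra hcon
    refine ht (hseg t htO fun b hb hbN => hcon ?_)
    have hb0 : b ≠ 0 := by
      rintro rfl
      rw [zero_smul, add_zero] at hbN
      exact ht₀N hbN
    have h1 := hOc ht₀O htO (a := 1 - b) (b := b) (by linarith [hb.2]) hb.1 (by ring)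
    have h2 : (1 - b) • t₀ + b • t = t₀ + b • (t - t₀) := by
      rw [sub_smul, one_smul, smul_sub]; abel
    rw [h2] at h1
    refine ⟨_, ⟨hbN, h1⟩, ((b⁻¹ : ℝ) : ℂ), ?_⟩
    rw [add_sub_cancel_left]
    have h3 : (((b⁻¹ : ℝ) : ℂ)) • (b • (t - t₀)) = b⁻¹ • (b • (t - t₀)) := by
      ext i
      simp
    rw [h3, smul_smul, inv_mul_cancel₀ hb0, one_smul]
    abel
  have hcov : Cov (q - 1) (O \ Om F (RV n p F) O t₀) := by
    refine Cov.mono ?_ hcone
    rcases hsm with h | ⟨h2, h3⟩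
    · rw [h]
      refine Cov.mono Cov.empty ?_
      rintro b ⟨s, hs, -⟩
      exact hs
    · exact cov_cone h2 h3 t₀
  have hpreOm : IsPreconnected (F ⁻¹' Om F (RV n p F) O t₀) := by
    have h1 := (removal hq hp.cov hB hex hcov (hO.preimage hD.cont)).2 hpre
    have h2 : F ⁻¹' O \ F ⁻¹' (O \ Om F (RV n p F) O t₀) = F ⁻¹' Om F (RV n p F) O t₀ := by
      ext y
      constructor
      · rintro ⟨h3, h4⟩
        by_contra h5
        exact h4 ⟨h3, h5⟩
      · intro h3
        exact ⟨om_sub h3, fun h4 => h4.2 h3⟩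
    rwa [h2] at h1
  have ht₀Om : t₀ ∈ Om F (RV n p F) O t₀ := hseg t₀ ht₀O fun b _ => by
    rw [sub_self, smul_zero, add_zero]
    exact ht₀N
  have hsame : ∀ y y', F y = t₀ → F y' = t₀ → Same F y y' := by
    intro y y' hy hy'
    exact om_same hD hpreOm hy₀ ht₀Om (by rw [hy, hy']) (by rw [hy]; exact ht₀Om)
      (by rw [hy]; exact ht₀R)
  have hall : ∀ {y y' : E}, F y ∈ RV n p F → F y' = F y → Same F y y' := fun {z z'} h1 h2 => all_of_one hD hRc (fun y hy => exists_section hp.cov hB (hy y rfl)) ht₀R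
    (y₀ := y₁) hsame h1 h2
  refine conn_of_same (hsurj t ht) fun y y' hy hy' => hall (by rw [hy]; exact ht) (by rw [hy, hy'])

theorem rvStmt : RVStmt := by
  intro n q X _ _ _ _ _ _ w E Γ _ _ _ _ p hp F c hA hex
  rcases Nat.eq_zero_or_pos q with rfl | hq
  · have h1 : RV n p F = univ := by
      ext t
      simp only [RV, mem_univ, iff_true]
      exact fun y _ => reg_zero y
    have h2 : NR n p F = ∅ := by
      ext t
      simp only [NR, mem_empty_iff_false, iff_false]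
      intro h
      obtain ⟨y⟩ : Nonempty E := inferInstance
      exact h y (Subsingleton.elim _ _) (reg_zero y)
    rw [h1, h2]
    exact ⟨isOpen_univ, dense_univ, isPreconnected_univ, fun h => absurd h (by omega),
      isClosed_empty, fun t _ => (conn_zero t).nonempty, fun _ t _ => conn_zero t⟩
  have hlc : LocallyConnectedSpace E := locConn hp.cov n
  obtain ⟨B, hB⟩ := hA.hol
  have hD := td hq hp hA hex
  have hRc : IsPreconnected (RV n p F) := by
    have := hD.dnc univ isOpen_univ convex_univ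
    simpa using this
  obtain ⟨y₁⟩ : Nonempty E := inferInstance
  have hsurj : ∀ s ∈ RV n p F, ∃ z, F z = s := by
    intro s hs
    obtain ⟨z, -, hz⟩ := surj hD isOpen_univ (by simpa using hRc) (y := y₁) (mem_univ _)
      (s := s) ⟨mem_univ _, hs⟩
    exact ⟨z, hz⟩
  refine ⟨hD.ropen, ?_, hRc, fun _ => rv_cov hq hp hA, nr_closed hp.cov hA, hsurj, ?_⟩
  · rw [dense_iff_inter_open]
    intro U hU ⟨t, ht⟩
    obtain ⟨r, hr, hb⟩ := Metric.isOpen_iff.1 hU t ht
    obtain ⟨s, hs1, hs2⟩ := hD.dn (ball t r) isOpen_ball (convex_ball t r) ⟨t, mem_ball_self hr⟩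
    exact ⟨s, hb hs1, hs2⟩
  · rintro ⟨t₀, ht₀, hc⟩ t ht
    have hall : ∀ {y y' : E}, F y ∈ RV n p F → F y' = F y → Same F y y' := fun {z z'} h1 h2 => all_of_one hD hRc (fun y hy => exists_section hp.cov hB (hy y rfl)) ht₀
      (y₀ := y₁) (fun y y' hy hy' => same_of_conn hc hy hy') h1 h2
    exact conn_of_same (hsurj t ht) fun y y' hy hy' => hall (by rw [hy]; exact ht) (by rw [hy, hy'])

theorem preStmt : PreStmt := by
  intro n q X _ _ _ _ _ _ w E Γ _ _ _ _ p hp F c hA hex hc O hO hOc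
  rcases Nat.eq_zero_or_pos q with rfl | hq
  · rcases O.eq_empty_or_nonempty with rfl | ⟨t, ht⟩
    · simpa using isPreconnected_empty
    · have : O = univ := by
        ext s
        simp [Subsingleton.elim s t, ht]
      rw [this]
      simpa using isPreconnected_univ
  have hlc : LocallyConnectedSpace E := locConn hp.cov n
  have hD := td hq hp hA hex
  exact pre_conv hD (fun y y' hy he => same_of_conn (hc _ hy) rfl he) hO hOc

end Vale.Agent.P284.H224

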