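import Vale.Agent.P284.H494.Tail
import Vale.Agent.P284.H279.TPS

/-!
# P284 (helper224), RAT: the null directions of a sheet function are rational; statements

`GD D 𝒢 S`: over `ℂ^q ∖ D` a family `𝒢` of germs of Hilbert space valued holomorphic functions, with
locally uniform radii of convergence, `S t` is the maximum of `‖f t‖²`, locally attained by a finite
family.
-/

open scoped Manifold ContDiff Topology ENNReal
open Filter Set Metric MeasureTheory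

noncomputable section

namespace Vale.Agent.P284.H224

open Vale.Agent.P272.K Vale.Agent.P284.H573 Vale.Agent.P284.H894.G Vale.Agent.P284.H894.W
  Vale.Agent.P284.H494 Vale.Agent.P284.H279

/-- A family of germs: `𝒢 t f` means that the germ of `f` at `t` belongs to the family. -/
structure GD {q : ℕ} {W : Type} [NormedAddCommGroup W] [InnerProductSpace ℂ W] (D : Set (Cm q))
    (𝒢 : Cm q → (Cm q → W) → Prop) (S : Cm q → ℝ) : Prop where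
  loc : ∀ t₀ ∉ D, ∃ ρ > 0, ball t₀ ρ ⊆ Dᶜ ∧ ∀ t ∈ ball t₀ ρ, ∀ f, 𝒢 t f →
    ∃ g : Cm q → W, DifferentiableOn ℂ g (ball t₀ ρ) ∧ (∀ t' ∈ ball t₀ ρ, 𝒢 t' g) ∧ f =ᶠ[𝓝 t] g
  fin : ∀ t₀ ∉ D, ∃ ρ > 0, ∃ (k : ℕ) (f : Fin k → Cm q → W), (∀ j, ∀ t ∈ ball t₀ ρ, 𝒢 t (f j)) ∧
    ∀ t ∈ ball t₀ ρ, ∃ j, S t = ‖f j t‖ ^ 2
  le : ∀ t ∉ D, ∀ f, 𝒢 t f → ‖f t‖ ^ 2 ≤ S t

/-- **Liouville**: if `D` is thin and invariant under `Λ` and `ℝ ζ`, and `S` is `Λ`-periodic and locally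
integrable, then some germ of the family is constant in the direction `ζ`. -/
def LineStmt : Prop :=
  ∀ (q : ℕ) (_ : 1 ≤ q) (W : Type) [NormedAddCommGroup W] [InnerProductSpace ℂ W] [CompleteSpace W]
    (Λ : AddSubgroup (Cm q)) (D : Set (Cm q)) (𝒢 : Cm q → (Cm q → W) → Prop) (S : Cm q → ℝ)
    (ζ : Cm q), (∀ R : ℝ, {v : Cm q | v ∈ Λ ∧ ‖v‖ ≤ R}.Finite) → Coco Λ → IsClosed D →
    H10.Cov (q - 1) D → (∀ l ∈ Λ, ∀ t ∈ D, t + l ∈ D) → (∀ s : ℝ, ∀ t ∈ D, t + s • ζ ∈ D) →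
    GD D 𝒢 S → (∀ l ∈ Λ, ∀ t ∉ D, S (t + l) = S t) →
    (∀ R : ℝ, ∫⁻ t in ball (0 : Cm q) R, ENNReal.ofReal (S t) < ⊤) →
    ∃ t ∉ D, ∃ f, 𝒢 t f ∧ ∀ᶠ t' in 𝓝 t, fderiv ℂ f t' ζ = 0

end Vale.Agent.P284.H224
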