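import Vale.Agent.P284.H224.Theta

/-!
# P284 (helper224), MULT: the periodic functions `Θ(z-a) Θ(z-b) Θ(z+a+b) / Θ(z)³` separate directions
-/

open scoped ContDiff Topology ComplexConjugate
open Filter Set Metric

noncomputable section

namespace Vale.Agent.P284.H224

open Vale.Agent.P272.K Vale.Agent.P284.H279

variable {q : ℕ} {Λ : AddSubgroup (Cm q)} {D : Set (Cm q)} {Θ : Cm q → ℂ}

/-- the numerator -/
def Phi3 (Θ : Cm q → ℂ) (a b z : Cm q) : ℂ := Θ (z - a) * Θ (z - b) * Θ (z + (a + b))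

theorem phi3_diff (hΘ : Differentiable ℂ Θ) (a b : Cm q) : Differentiable ℂ (Phi3 Θ a b) := by
  have h1 : Differentiable ℂ fun z : Cm q => Θ (z - a) := hΘ.comp (differentiable_id.sub_const a)
  have h2 : Differentiable ℂ fun z : Cm q => Θ (z - b) := hΘ.comp (differentiable_id.sub_const b)
  have h3 : Differentiable ℂ fun z : Cm q => Θ (z + (a + b)) :=
    hΘ.comp (differentiable_id.add_const (a + b))
  exact (h1.mul h2).mul h3

/-- the quotients are periodic -/
theorem phi3_per (hΘ : Theta Λ D Θ) {l : Cm q} (hl : l ∈ Λ) (a b z : Cm q) :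
    Phi3 Θ a b (z + l) * (Θ (z + l) ^ 3)⁻¹ = Phi3 Θ a b z * (Θ z ^ 3)⁻¹ := by
  obtain ⟨A, α, h⟩ := hΘ.per l hl
  have hα : α ≠ 0 := by
    rintro rfl
    obtain ⟨z₁, hz₁⟩ := hΘ.ne
    apply hz₁
    rw [← hΘ.zero]
    have := h (z₁ - l)
    rw [sub_add_cancel, zero_mul, zero_mul] at this
    exact this
  have h1 : Phi3 Θ a b (z + l) = (α * Complex.exp (A z)) ^ 3 * Phi3 Θ a b z := by
    unfold Phi3
    rw [show z + l - a = (z - a) + l by abel, show z + l - b = (z - b) + l by abel,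
      show z + l + (a + b) = (z + (a + b)) + l by abel, h, h, h]
    have h2 : Complex.exp (A (z - a)) * Complex.exp (A (z - b)) * Complex.exp (A (z + (a + b))) =
        Complex.exp (A z) ^ 3 := by
      rw [← Complex.exp_add, ← Complex.exp_add, ← Complex.exp_nat_mul]
      congr 1
      simp only [map_sub, map_add]
      push_cast
      ring
    rw [mul_pow, ← h2]
    ring
  rw [h1, h z, mul_pow (α * Complex.exp (A z)) (Θ z) 3, mul_inv]
  have h3 : (α * Complex.exp (A z)) ^ 3 ≠ 0 := pow_ne_zero 3 (mul_ne_zero hα (Complex.exp_ne_zero _))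
  field_simp

/-- the logarithmic derivative of `Φ / Θ³` -/
theorem phi3_deriv (hΘ : Differentiable ℂ Θ) {a b z η : Cm q} (h0 : Θ z ≠ 0) (ha : Θ (z - a) ≠ 0)
    (hb : Θ (z - b) ≠ 0) (hab : Θ (z + (a + b)) ≠ 0) :
    fderiv ℂ (fun z => Phi3 Θ a b z * (Θ z ^ 3)⁻¹) z η = Phi3 Θ a b z * (Θ z ^ 3)⁻¹ *
      (fderiv ℂ Θ (z - a) η / Θ (z - a) + fderiv ℂ Θ (z - b) η / Θ (z - b) +
        fderiv ℂ Θ (z + (a + b)) η / Θ (z + (a + b)) - 3 * (fderiv ℂ Θ z η / Θ z)) := by
  have h1 : HasFDerivAt (fun z : Cm q => Θ (z - a)) (fderiv ℂ Θ (z - a)) z :=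
    (hΘ (z - a)).hasFDerivAt.comp z ((hasFDerivAt_id z).sub_const a)
  have h2 : HasFDerivAt (fun z : Cm q => Θ (z - b)) (fderiv ℂ Θ (z - b)) z :=
    (hΘ (z - b)).hasFDerivAt.comp z ((hasFDerivAt_id z).sub_const b)
  have h3 : HasFDerivAt (fun z : Cm q => Θ (z + (a + b))) (fderiv ℂ Θ (z + (a + b))) z :=
    (hΘ (z + (a + b))).hasFDerivAt.comp z ((hasFDerivAt_id z).add_const (a + b))
  have h4 : HasFDerivAt (fun z : Cm q => Θ z ^ 3) ((3 * Θ z ^ 2) • fderiv ℂ Θ z) z := by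
    have := (hΘ z).hasFDerivAt.pow 3
    simpa using this
  have h5 := (hasDerivAt_inv (pow_ne_zero 3 h0)).comp_hasFDerivAt z h4
  have h6 := ((h1.mul h2).mul h3).mul h5
  have h7 : HasFDerivAt (fun z => Phi3 Θ a b z * (Θ z ^ 3)⁻¹) _ z := h6
  rw [h7.fderiv]
  simp only [add_apply, smul_apply, smul_eq_mul, Function.comp_apply, Phi3, Pi.mul_apply]
  field_simp
  ring

/-- **directions are separated** -/
theorem phi3_sep (hΘ : Theta Λ D Θ)
    (hno : ∀ v : Cm q, (∀ s : ℂ, ∀ x ∈ D, x + s • v ∈ D) → v = 0) {z₀ : Cm q} (hz₀ : z₀ ∉ D)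
    {η : Cm q} (h : ∀ a b : Cm q, fderiv ℂ (fun z => Phi3 Θ a b z * (Θ z ^ 3)⁻¹) z₀ η = 0) :
    η = 0 := by
  have hd := hΘ.diff
  have h0 : Θ z₀ ≠ 0 := fun h => hz₀ ((hΘ.zero z₀).1 h)
  have hda : Differentiable ℂ fun z => fderiv ℂ Θ z η := by
    have h1 : AnalyticOnNhd ℂ Θ univ :=
      Vale.Agent.P268.analyticOnNhd_of_differentiableOn isOpen_univ hd.differentiableOn
    intro z
    exact ((h1.fderiv z (mem_univ z)).differentiableAt).clm_apply (differentiableAt_const η)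
  -- the logarithmic derivative
  set ℓ : Cm q → ℂ := fun z => fderiv ℂ Θ z η / Θ z with hℓ
  obtain ⟨r, hr, hb⟩ := Metric.eventually_nhds_iff_ball.1
    (hd.continuous.continuousAt.eventually_ne h0 : ∀ᶠ z in 𝓝 z₀, Θ z ≠ 0)
  set m : Cm q → ℂ := fun u => ℓ (z₀ + u) - ℓ z₀ with hm
  have hmem : ∀ u : Cm q, ‖u‖ < r → Θ (z₀ + u) ≠ 0 := fun u hu => hb _ (by
    rw [mem_ball, dist_eq_norm, add_sub_cancel_left]; exact hu)
  have hm0 : m 0 = 0 := by simp [hm]
  have hsum : ∀ a b : Cm q, ‖a‖ < r / 2 → ‖b‖ < r / 2 → m (-a) + m (-b) + m (a + b) = 0 := by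
    intro a b ha hb
    have h1 : Θ (z₀ - a) ≠ 0 := by
      rw [sub_eq_add_neg]; exact hmem _ (by rw [norm_neg]; linarith)
    have h2 : Θ (z₀ - b) ≠ 0 := by
      rw [sub_eq_add_neg]; exact hmem _ (by rw [norm_neg]; linarith)
    have h3 : Θ (z₀ + (a + b)) ≠ 0 := hmem _ (by
      have := norm_add_le a b; linarith)
    have h4 := h a b
    rw [phi3_deriv hd h0 h1 h2 h3] at h4
    have h5 : Phi3 Θ a b z₀ * (Θ z₀ ^ 3)⁻¹ ≠ 0 :=
      mul_ne_zero (mul_ne_zero (mul_ne_zero h1 h2) h3) (inv_ne_zero (pow_ne_zero 3 h0))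
    have h6 := (mul_eq_zero.1 h4).resolve_left h5
    show (ℓ (z₀ + -a) - ℓ z₀) + (ℓ (z₀ + -b) - ℓ z₀) + (ℓ (z₀ + (a + b)) - ℓ z₀) = 0
    rw [← sub_eq_add_neg, ← sub_eq_add_neg]
    show (fderiv ℂ Θ (z₀ - a) η / Θ (z₀ - a) - fderiv ℂ Θ z₀ η / Θ z₀) +
      (fderiv ℂ Θ (z₀ - b) η / Θ (z₀ - b) - fderiv ℂ Θ z₀ η / Θ z₀) +
      (fderiv ℂ Θ (z₀ + (a + b)) η / Θ (z₀ + (a + b)) - fderiv ℂ Θ z₀ η / Θ z₀) = 0
    linear_combination h6
  have hodd : ∀ a : Cm q, ‖a‖ < r / 2 → m (-a) = -m a := by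
    intro a ha
    have := hsum a 0 ha (by rw [norm_zero]; linarith)
    rw [neg_zero, hm0, add_zero, add_zero] at this
    exact eq_neg_of_add_eq_zero_left this
  have hadd : ∀ a b : Cm q, ‖a‖ < r / 2 → ‖b‖ < r / 2 → m (a + b) = m a + m b := by
    intro a b ha hb
    have := hsum a b ha hb
    rw [hodd a ha, hodd b hb] at this
    linear_combination this
  have hmd : ∀ u : Cm q, ‖u‖ < r → DifferentiableAt ℂ m u := by
    intro u hu
    have h1 : DifferentiableAt ℂ ℓ (z₀ + u) := by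
      show DifferentiableAt ℂ (fun z => fderiv ℂ Θ z η / Θ z) (z₀ + u)
      simp only [div_eq_mul_inv]
      exact (hda _).mul ((hd _).inv (hmem u hu))
    have h2 : DifferentiableAt ℂ (fun u : Cm q => z₀ + u) u := by fun_prop
    exact (DifferentiableAt.comp u h1 h2).sub_const _
  set L := fderiv ℂ m 0 with hL
  have hfd : ∀ a : Cm q, ‖a‖ < r / 2 → fderiv ℂ m a = L := by
    intro a ha
    have h1 : HasFDerivAt (fun b => m (a + b)) (fderiv ℂ m a) 0 := by
      have h2 : HasFDerivAt (fun b : Cm q => a + b) (ContinuousLinearMap.id ℂ (Cm q)) 0 :=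
        (hasFDerivAt_id (0 : Cm q)).const_add a
      have h3 : HasFDerivAt m (fderiv ℂ m a) (a + 0) := by
        rw [add_zero]
        exact (hmd a (by linarith)).hasFDerivAt
      exact h3.comp 0 h2
    have h4 : HasFDerivAt (fun b => m a + m b) L 0 :=
      ((hmd 0 (by rw [norm_zero]; exact hr)).hasFDerivAt).const_add (m a)
    have h5 : (fun b => m (a + b)) =ᶠ[𝓝 0] fun b => m a + m b := by
      filter_upwards [ball_mem_nhds (0 : Cm q) (half_pos hr)] with b hb
      rw [mem_ball_zero_iff] at hb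
      exact hadd a b ha hb
    exact h1.unique (h4.congr_of_eventuallyEq h5)
  have hlin : ∀ a : Cm q, ‖a‖ < r / 2 → m a = L a := by
    intro a ha
    have h1 : DifferentiableOn ℂ (fun u => m u - L u) (ball 0 (r / 2)) := by
      intro u hu
      rw [mem_ball_zero_iff] at hu
      exact ((hmd u (by linarith)).sub L.differentiableAt).differentiableWithinAt
    have h2 := isOpen_ball.is_const_of_fderiv_eq_zero (𝕜 := ℂ)
      (convex_ball (0 : Cm q) (r / 2)).isPreconnected h1 (by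
        intro u hu
        rw [mem_ball_zero_iff] at hu
        have h3 : HasFDerivAt (fun u => m u - L u) (fderiv ℂ m u - L) u :=
          (hmd u (by linarith)).hasFDerivAt.sub L.hasFDerivAt
        rw [h3.fderiv, hfd u hu, sub_self]
        rfl) (mem_ball_zero_iff.2 ha) (mem_ball_self (half_pos hr))
    have h3 : m a - L a = m 0 - L 0 := h2
    rw [hm0, map_zero, sub_zero] at h3
    exact sub_eq_zero.1 h3
  -- the differential equation
  have hode : ∀ z, fderiv ℂ Θ z η = (ℓ z₀ + L (z - z₀)) * Θ z := by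
    have h1 : AnalyticOnNhd ℂ (fun z => fderiv ℂ Θ z η) univ :=
      Vale.Agent.P268.analyticOnNhd_of_differentiableOn isOpen_univ hda.differentiableOn
    have h2d : Differentiable ℂ (fun z => (ℓ z₀ + L (z - z₀)) * Θ z) := by
      have h3 : Differentiable ℂ fun z : Cm q => L (z - z₀) :=
        L.differentiable.comp (differentiable_id.sub_const z₀)
      exact (h3.const_add _).mul hd
    have h2 : AnalyticOnNhd ℂ (fun z => (ℓ z₀ + L (z - z₀)) * Θ z) univ :=
      Vale.Agent.P268.analyticOnNhd_of_differentiableOn isOpen_univ h2d.differentiableOn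
    have h3 : (fun z => fderiv ℂ Θ z η) =ᶠ[𝓝 z₀] fun z => (ℓ z₀ + L (z - z₀)) * Θ z := by
      filter_upwards [ball_mem_nhds z₀ (half_pos hr)] with z hz
      have hz' : ‖z - z₀‖ < r / 2 := by rwa [mem_ball, dist_eq_norm] at hz
      have h4 := hlin (z - z₀) hz'
      have h5 : Θ z ≠ 0 := hb z (by
        rw [mem_ball, dist_eq_norm]; linarith)
      have h6 : m (z - z₀) = ℓ z - ℓ z₀ := by
        show ℓ (z₀ + (z - z₀)) - ℓ z₀ = _
        rw [add_sub_cancel]
      have h7 : ℓ z = ℓ z₀ + L (z - z₀) := by rw [← h4, h6]; ring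
      rw [← h7]
      show fderiv ℂ Θ z η = fderiv ℂ Θ z η / Θ z * Θ z
      rw [div_mul_cancel₀ _ h5]
    intro z
    exact h1.eqOn_of_preconnected_of_eventuallyEq h2 isPreconnected_univ (mem_univ z₀) h3
      (mem_univ z)
  refine hno η fun s x hx => ?_
  rw [← hΘ.zero]
  set α : ℂ := ℓ z₀ + L (x - z₀) with hα
  set β : ℂ := L η with hβ
  have hy : ∀ s : ℂ, HasDerivAt (fun s : ℂ => Θ (x + s • η)) ((α + β * s) * Θ (x + s • η)) s := by
    intro s
    have h1 : HasDerivAt (fun s : ℂ => x + s • η) η s := by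
      have := ((hasDerivAt_id s).smul_const η).const_add x
      simpa using this
    have h2 := (hd (x + s • η)).hasFDerivAt.comp_hasDerivAt s h1
    have h3 : fderiv ℂ Θ (x + s • η) η = (α + β * s) * Θ (x + s • η) := by
      rw [hode]
      have h4 : L (x + s • η - z₀) = L (x - z₀) + s * L η := by
        rw [show x + s • η - z₀ = (x - z₀) + s • η by abel, map_add, map_smul, smul_eq_mul]
      rw [h4]
      ring
    rw [← h3]
    exact h2
  set G : ℂ → ℂ := fun s => Θ (x + s • η) * Complex.exp (-(α * s + β * s ^ 2 / 2)) with hG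
  have hGd : ∀ s, HasDerivAt G 0 s := by
    intro s
    have h1 : HasDerivAt (fun s : ℂ => -(α * s + β * s ^ 2 / 2)) (-(α + β * s)) s := by
      have h2 : HasDerivAt (fun s : ℂ => α * s) α s := by
        simpa using (hasDerivAt_id s).const_mul α
      have h3 : HasDerivAt (fun s : ℂ => β * s ^ 2 / 2) (β * s) s := by
        have := (((hasDerivAt_id s).pow 2).const_mul β).div_const 2
        refine this.congr_deriv ?_
        simp
        ring
      exact (h2.add h3).neg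
    have h4 := (hy s).mul h1.cexp
    refine h4.congr_deriv ?_
    ring
  have hGc : G s = G 0 := is_const_of_deriv_eq_zero (fun s => (hGd s).differentiableAt)
    (fun s => (hGd s).deriv) s 0
  have hG0 : G 0 = 0 := by
    show Θ (x + (0 : ℂ) • η) * _ = 0
    rw [zero_smul, add_zero, (hΘ.zero x).2 hx, zero_mul]
  rw [hG0] at hGc
  exact (mul_eq_zero.1 hGc).resolve_right (Complex.exp_ne_zero _)

/-- finitely many of the functions suffice at a point; the first one is `1` -/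
theorem exists_fin (hΘ : Theta Λ D Θ)
    (hno : ∀ v : Cm q, (∀ s : ℂ, ∀ x ∈ D, x + s • v ∈ D) → v = 0) {z₀ : Cm q} (hz₀ : z₀ ∉ D) :
    ∃ (k : ℕ) (a b : Fin (k + 1) → Cm q), a 0 = 0 ∧ b 0 = 0 ∧
      ∀ η, (∀ i, fderiv ℂ (fun z => Phi3 Θ (a i) (b i) z * (Θ z ^ 3)⁻¹) z₀ η = 0) → η = 0 := by
  classical
  let T : Cm q × Cm q → (Cm q →L[ℂ] ℂ) := fun x =>
    fderiv ℂ (fun z => Phi3 Θ x.1 x.2 z * (Θ z ^ 3)⁻¹) z₀
  let K : Finset (Cm q × Cm q) → Submodule ℂ (Cm q) := fun t =>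
    ⨅ x ∈ t, LinearMap.ker (T x : Cm q →ₗ[ℂ] ℂ)
  have hmem : ∀ t η, η ∈ K t ↔ ∀ x ∈ t, T x η = 0 := by
    intro t η
    simp [K, Submodule.mem_iInf]
  obtain ⟨t, ht⟩ : ∃ t, ∀ t', Module.finrank ℂ (K t) ≤ Module.finrank ℂ (K t') := by
    obtain ⟨t, ht⟩ := Function.argmin_le (fun t => Module.finrank ℂ (K t)) |> fun _ =>
      (⟨Function.argmin (fun t => Module.finrank ℂ (K t)), fun t' =>
        Function.argmin_le (fun t => Module.finrank ℂ (K t)) t'⟩ :
        ∃ t, ∀ t', Module.finrank ℂ (K t) ≤ Module.finrank ℂ (K t'))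
    exact ⟨t, ht⟩
  have hbot : K t = ⊥ := by
    rw [eq_bot_iff]
    intro η hη
    by_contra hne
    have hne' : η ≠ 0 := fun h => hne (by rw [h]; exact Submodule.zero_mem _)
    obtain ⟨a, b, hab⟩ : ∃ a b : Cm q, T (a, b) η ≠ 0 := by
      by_contra hcon
      push Not at hcon
      exact hne' (phi3_sep hΘ hno hz₀ hcon)
    have hlt : K (insert (a, b) t) < K t := by
      refine lt_of_le_of_ne ?_ ?_
      · intro ζ hζ
        rw [hmem] at hζ ⊢
        exact fun x hx => hζ x (Finset.mem_insert_of_mem hx)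
      · intro h
        have h1 : η ∈ K (insert (a, b) t) := by rw [h]; exact hη
        rw [hmem] at h1
        exact hab (h1 _ (Finset.mem_insert_self _ _))
    exact absurd (ht (insert (a, b) t)) (not_le.2 (Submodule.finrank_lt_finrank_of_lt hlt))
  let e := t.equivFin
  refine ⟨t.card, Fin.cons 0 fun i => (e.symm i).1.1, Fin.cons 0 fun i => (e.symm i).1.2, rfl, rfl,
    fun η h => ?_⟩
  have h1 : η ∈ K t := by
    rw [hmem]
    intro x hx
    have h2 := h (Fin.succ (e ⟨x, hx⟩))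
    simp only [Fin.cons_succ, Equiv.symm_apply_apply] at h2
    exact h2
  rw [hbot] at h1
  exact (Submodule.mem_bot ℂ).1 h1

end Vale.Agent.P284.H224
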