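import Vale.Agent.P284.H224.MultS
import Vale.Agent.P284.H224.ThetaImm
import Vale.Agent.P284.H494.Tail
import Vale.Agent.P284.H279.TPe

/-!
# P284 (helper224), MULT: proof
-/

open scoped Manifold ContDiff Topology
open Filter Set Metric

noncomputable section

namespace Vale.Agent.P284.H224

open Vale.Agent.P272.K Vale.Agent.P284.H573 Vale.Agent.P284.H894.G Vale.Agent.P284.H894.W
  Vale.Agent.P284.H494 Vale.Agent.P284.H279 Vale.Agent.P284.H10

section
variable {n : ℕ} {X : Type} [TopologicalSpace X] [ChartedSpace (Cm n) X] {E : Type}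
  [TopologicalSpace E]
  {p : E → X} {w : Chart n X → Cm n → Matrix (Fin n) (Fin n) ℂ} {r : ℕ} {t : E → Cm r}
  {B : ℝ} {R : Set E} {W : Type} [NormedAddCommGroup W] [InnerProductSpace ℂ W] {u : E → W}
  {Γ : Type} [Group Γ] [MulAction Γ E]

/-- equivariance of the values -/
theorem vl_smul [CompleteSpace W] (hp : IsGalois Γ p) (ht : HolB p w t B) (hRd : Dense R)
    (hRg : ∀ (g : Γ) (y : E), g • y ∈ R ↔ y ∈ R) {M : ℕ} {γ : Γ} {a : Cm r}
    (ha : ∀ y, t (γ • y) = t y + a) {U : W →ₗᵢ[ℂ] W} (hU' : ∀ y ∈ R, u (γ • y) = U (u y))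
    (h : ∀ (y : E) (e : Chart n X), At e (p y) → ExtAt p t R u M y e)
    {y : E} {e : Chart n X} (he : At e (p y)) (ξ : Fin r → Cm n) :
    vl p t R u M (γ • y) e ξ = U (vl p t R u M y e ξ) := by
  have he' : At e (p (γ • y)) := by rw [p_smul' hp]; exact he
  have hne : (𝓝[R] (γ • y)).NeBot := mem_closure_iff_nhdsWithin_neBot.1 (hRd _)
  have h1 := vl_tendsto hp.cov hRd he' (h _ e he') ξ
  have h2 : Tendsto (fun y' => γ⁻¹ • y') (𝓝[R] (γ • y)) (𝓝[R] y) := by
    refine tendsto_nhdsWithin_iff.2 ⟨?_, ?_⟩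
    · have := (hp.cont γ⁻¹).tendsto (γ • y)
      rw [inv_smul_smul] at this
      exact this.mono_left nhdsWithin_le_nhds
    · filter_upwards [self_mem_nhdsWithin] with y' hy' using (hRg _ _).2 hy'
  have h3 := (U.continuous.tendsto _).comp ((vl_tendsto hp.cov hRd he (h y e he) ξ).comp h2)
  refine tendsto_nhds_unique h1 (h3.congr' ?_)
  have h5 : ∀ᶠ y' in 𝓝[R] (γ • y), p y' ∈ e.source :=
    eventually_nhdsWithin_of_eventually_nhds
      (hp.cov.continuous.continuousAt.eventually (e.open_source.mem_nhds he'.2))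
  filter_upwards [self_mem_nhdsWithin, h5] with y' h6 h7
  have h8 : γ⁻¹ • y' ∈ R := (hRg _ _).2 h6
  have h9 := hU' _ h8
  rw [smul_inv_smul] at h9
  have h10 := dt_smul hp ht ha (y := γ⁻¹ • y') (e := e)
    (by rw [p_smul' hp]; exact ⟨he.1, h7⟩) ξ
  rw [smul_inv_smul] at h10
  simp only [Function.comp_apply]
  rw [h9, h10, map_smul]

end

/-- the map to the finite dimensional space -/
def gam {q : ℕ} (Θ : Cm q → ℂ) {k : ℕ} (a b : Fin (k + 1) → Cm q) (t : Cm q) :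
    EuclideanSpace ℂ (Fin (k + 1)) :=
  WithLp.toLp 2 fun i => Phi3 Θ (a i) (b i) t * (Θ t ^ 3)⁻¹

theorem gam_analytic {q : ℕ} {Θ : Cm q → ℂ} (hΘ : Differentiable ℂ Θ) {k : ℕ}
    (a b : Fin (k + 1) → Cm q) {t : Cm q} (ht : Θ t ≠ 0) : AnalyticAt ℂ (gam Θ a b) t := by
  have h1 : ∀ i, AnalyticAt ℂ (fun t => Phi3 Θ (a i) (b i) t * (Θ t ^ 3)⁻¹) t := by
    intro i
    have h2 : AnalyticAt ℂ (Phi3 Θ (a i) (b i)) t :=
      Vale.Agent.P268.analyticAt_of_differentiableOn isOpen_univ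
        (phi3_diff hΘ (a i) (b i)).differentiableOn (mem_univ t)
    have h3 : AnalyticAt ℂ Θ t :=
      Vale.Agent.P268.analyticAt_of_differentiableOn isOpen_univ hΘ.differentiableOn (mem_univ t)
    exact h2.mul ((h3.pow 3).inv (pow_ne_zero 3 ht))
  exact ((PiLp.continuousLinearEquiv 2 ℂ fun _ : Fin (k + 1) =>
    ℂ).symm.toContinuousLinearMap.analyticAt _).comp (AnalyticAt.pi h1)

theorem multStmt : MultStmt := by
  intro n q X _ _ _ _ _ _ w E Γ _ _ _ _ p hp F c hP hex Λ hcΛ hco Ed hEd hne hcrit hno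
  obtain ⟨B, hB⟩ := hP.hol
  obtain ⟨Θ, hΘ⟩ := exists_theta potStmt hEd hco
  -- `q ≥ 1`
  have hq : 1 ≤ q := by
    by_contra hq0
    have hq0' : q = 0 := by omega
    subst hq0'
    obtain ⟨z, hz⟩ := hΘ.ne
    obtain ⟨z', hz'⟩ := hne
    exact hz (by rw [Subsingleton.elim z z']; exact hz')
  obtain ⟨y₀, hy₀⟩ := hex
  have hz₀ : F y₀ ∉ zs Ed := fun h => hcrit y₀ h hy₀
  obtain ⟨k, a, b, ha0, hb0, hab⟩ := exists_fin hΘ hno hz₀
  set R : Set E := {y | Reg (n := n) p F y} with hR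
  have hRo : IsOpen R := reg_open hp.cov hB
  have hRd : Dense R := reg_dense hq hp.cov hB ⟨y₀, hy₀⟩
  have hRr : ∀ y ∈ R, Reg (n := n) p F y := fun y hy => hy
  have hRg : ∀ (g : Γ) (y : E), g • y ∈ R ↔ y ∈ R := fun g y => hP.reg_smul_iff hp g y
  have hg : ∀ g : Γ, ∃ a, ∀ y, F (g • y) = F y + a := fun g => ⟨c g, hP.equiv g⟩
  have hRΘ : ∀ y ∈ R, Θ (F y) ≠ 0 := fun y hy h => hcrit y ((hΘ.zero _).1 h) hy
  set u : E → EuclideanSpace ℂ (Fin (k + 1)) := fun y => gam Θ a b (F y) with hu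
  have hper : ∀ l ∈ Λ, ∀ t, gam Θ a b (t + l) = gam Θ a b t := by
    intro l hl t
    unfold gam
    congr 1
    funext i
    exact phi3_per hΘ hl _ _ _
  have hU : ∀ g : Γ, ∀ y ∈ R, u (g • y) =
      (LinearIsometry.id : EuclideanSpace ℂ (Fin (k + 1)) →ₗᵢ[ℂ] _) (u y) := by
    intro g y _
    show gam Θ a b (F (g • y)) = gam Θ a b (F y)
    rw [hP.equiv, hper _ (hcΛ g)]
  have hΘa : ∀ z, AnalyticAt ℂ Θ z := fun z =>
    Vale.Agent.P268.analyticAt_of_differentiableOn isOpen_univ hΘ.diff.differentiableOn (mem_univ z)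
  have hΦa : ∀ i z, AnalyticAt ℂ (Phi3 Θ (a i) (b i)) z := fun i z =>
    Vale.Agent.P268.analyticAt_of_differentiableOn isOpen_univ
      (phi3_diff hΘ.diff (a i) (b i)).differentiableOn (mem_univ z)
  have hGF : GF n p F R u := by
    refine ⟨fun y hy => ⟨gam Θ a b, gam_analytic hΘ.diff a b (hRΘ y hy),
      Eventually.of_forall fun y' _ => rfl⟩, fun y e he => ?_⟩
    obtain ⟨ε, hε, hyε, -, -⟩ := exists_ch_at hp.cov he univ_mem
    have hz : e (p y) = ε y := (hε.eq y hyε).symm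
    have hFa : AnalyticAt ℂ (F ∘ ε.symm) (e (p y)) := by
      rw [hz]
      exact IsCh.analytic hε hB _ (ε.map_source hyε)
    refine ⟨fun z => Θ ((F ∘ ε.symm) z) ^ 3,
      fun z => WithLp.toLp 2 fun i => Phi3 Θ (a i) (b i) ((F ∘ ε.symm) z), ?_, ?_, ?_, ?_⟩
    · exact ((hΘa _).fun_comp hFa).pow 3
    · exact ((PiLp.continuousLinearEquiv 2 ℂ fun _ : Fin (k + 1) =>
        ℂ).symm.toContinuousLinearMap.analyticAt _).comp
        (AnalyticAt.pi fun i => (hΦa i _).fun_comp hFa)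
    · intro h0
      rw [← IsCh.map_nhds hε hyε] at h0
      have h1 : ∀ᶠ y' in 𝓝 y, Θ ((F ∘ ε.symm) (e (p y'))) ^ 3 = 0 := h0
      obtain ⟨y', hy', h2, h3⟩ := (mem_closure_iff_frequently.1 (hRd y)).and_eventually
        (h1.and (ε.open_source.mem_nhds hyε)) |>.exists
      rw [← hε.eq _ h3, Function.comp_apply, ε.left_inv h3] at h2
      exact hRΘ y' hy' (pow_eq_zero_iff (n := 3) (by norm_num) |>.1 h2)
    · filter_upwards [ε.open_source.mem_nhds hyε] with y' h3 hy'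
      rw [← hε.eq _ h3, Function.comp_apply, ε.left_inv h3]
      show Θ (F y') ^ 3 • WithLp.toLp 2 (fun i => Phi3 Θ (a i) (b i) (F y') * (Θ (F y') ^ 3)⁻¹) = _
      rw [← WithLp.toLp_smul]
      congr 1
      funext i
      rw [Pi.smul_apply, smul_eq_mul]
      have h4 : Θ (F y') ^ 3 ≠ 0 := pow_ne_zero 3 (hRΘ y' hy')
      rw [mul_comm (Phi3 Θ (a i) (b i) (F y')), ← mul_assoc, mul_inv_cancel₀ h4, one_mul]
  obtain ⟨M₀, hM₀⟩ := ext_all hp hB hRo hRd hRr hRg hg hGF fun g => ⟨LinearIsometry.id, hU g⟩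
  have hM := hM₀ (M₀ + 1) (Nat.le_succ _)
  have hv := hform_vl hp hB hRd hRg hg (fun g => ⟨LinearIsometry.id, hU g⟩) hM
  refine ⟨M₀ + 1, k, gam Θ a b, vl p F R u (M₀ + 1), hq, by omega, hv, ?_, ?_, ?_, hper, y₀, hy₀, ?_⟩
  · intro g y e he ξ
    exact vl_smul hp hB hRd hRg (hP.equiv g) (hU g) hM he ξ
  · intro y e he hy ξ
    exact vl_mem hp.cov hRd he (hM y e he) hy ξ
  · intro t ht
    have h1 : Θ t ≠ 0 := fun h => ht ((hΘ.zero t).1 h)
    refine ⟨gam_analytic hΘ.diff a b h1, ?_⟩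
    show Phi3 Θ (a 0) (b 0) t * (Θ t ^ 3)⁻¹ = 1
    rw [ha0, hb0]
    unfold Phi3
    rw [sub_zero, add_zero, add_zero]
    field_simp
  · -- the good point
    obtain ⟨e, ε, hε, hyε, -, -⟩ := exists_ch (n := n) hp.cov y₀ univ_mem
    have hz : e (p y₀) = ε y₀ := (hε.eq y₀ hyε).symm
    have hzt : ε y₀ ∈ ε.target := ε.map_source hyε
    have hTa := IsCh.analytic hε hB
    have hbz : (F ∘ ε.symm) (e (p y₀)) = F y₀ := by
      rw [hz, Function.comp_apply, ε.left_inv hyε]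
    have hγa : AnalyticAt ℂ (gam Θ a b) (F y₀) := gam_analytic hΘ.diff a b (hRΘ y₀ hy₀)
    have hproj : ∀ i (η : Cm q), fderiv ℂ (fun z => Phi3 Θ (a i) (b i) z * (Θ z ^ 3)⁻¹) (F y₀) η =
        (fderiv ℂ (gam Θ a b) (F y₀) η) i := by
      intro i η
      let L : EuclideanSpace ℂ (Fin (k + 1)) →L[ℂ] ℂ := (ContinuousLinearMap.proj i).comp
        (PiLp.continuousLinearEquiv 2 ℂ fun _ : Fin (k + 1) => ℂ).toContinuousLinearMap
      have h4 : fderiv ℂ (fun a' => L (gam Θ a b a')) (F y₀) =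
          L.comp (fderiv ℂ (gam Θ a b) (F y₀)) :=
        (L.hasFDerivAt.comp _ hγa.differentiableAt.hasFDerivAt).fderiv
      have h5 : (fun a' => L (gam Θ a b a')) = fun z => Phi3 Θ (a i) (b i) z * (Θ z ^ 3)⁻¹ := rfl
      rw [h5] at h4
      rw [h4]
      rfl
    have hone : ∀ z, Θ z ≠ 0 → Phi3 Θ (a 0) (b 0) z * (Θ z ^ 3)⁻¹ = 1 := by
      intro z hz
      rw [ha0, hb0]
      unfold Phi3
      rw [sub_zero, add_zero, add_zero]
      field_simp
    refine ⟨e, F ∘ ε.symm, gam Θ a b, ?_⟩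
    refine ⟨hε.at hyε, ?_, ?_, ?_, ?_, ?_⟩
    · rw [hz]
      exact hTa _ hzt
    · rw [hz]
      exact (hε.reg_iff hp.cov hB hyε).1 hy₀
    · rw [hbz]
      exact hγa
    · rw [hbz]
      have h0 : gam Θ a b (F y₀) 0 = 1 := hone _ (hRΘ y₀ hy₀)
      refine ⟨?_, ?_⟩
      · intro h1
        rw [h1] at h0
        simp at h0
      · intro η c' hη
        have h1 : c' = 0 := by
          have h2 := hproj 0 η
          rw [hη] at h2
          have h3 : fderiv ℂ (fun z => Phi3 Θ (a 0) (b 0) z * (Θ z ^ 3)⁻¹) (F y₀) = 0 := by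
            have h4 : (fun z => Phi3 Θ (a 0) (b 0) z * (Θ z ^ 3)⁻¹) =ᶠ[𝓝 (F y₀)] fun _ => 1 := by
              filter_upwards [hΘ.diff.continuous.continuousAt.eventually_ne (hRΘ y₀ hy₀)]
                with z hz using hone z hz
            rw [h4.fderiv_eq]
            exact fderiv_const_apply _
          rw [h3] at h2
          have h5 : (c' • gam Θ a b (F y₀)) 0 = c' * gam Θ a b (F y₀) 0 := rfl
          rw [h5, h0, mul_one] at h2
          exact h2.symm
        apply hab η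
        intro i
        rw [hproj i η, hη, h1, zero_smul]
        rfl
    · -- the normal form
      filter_upwards [hRo.mem_nhds hy₀, ε.open_source.mem_nhds hyε] with y h2 h3 ξ
      have hzy : e (p y) = ε y := (hε.eq y h3).symm
      have hey : At e (p y) := hε.at h3
      have hby : (F ∘ ε.symm) (e (p y)) = F y := by
        rw [hzy, Function.comp_apply, ε.left_inv h3]
      rw [hby, hzy, ← dt_ch hp.cov hB hε h3]
      exact vl_mem hp.cov hRd hey (hM y e hey) h2 ξ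

end Vale.Agent.P284.H224
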