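import Vale.Agent.P284.H494.Tail
import Vale.Agent.P284.H224.Mult
import Vale.Agent.P284.H837.SpS

/-!
# P284 (helper224), T1', MF(I): tail with equivariance and normal form

The form of helper494's tail is equivariant, and invariant under the elements which leave `h` invariant.
-/

open scoped Manifold ContDiff Topology ENNReal
open Filter Set Metric MeasureTheory

noncomputable section

namespace Vale.Agent.P284.H224

open Vale.Agent.P272.K Vale.Agent.P284.H894.W Vale.Agent.P284.H894.G Vale.Agent.P284.H10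
  Vale.Agent.P284.H573 Vale.Agent.P284.H494 Vale.Agent.P284.H837

/-- **MF(I), tail with equivariance** -/
def TailEqStmt : Prop :=
  ∀ (n q : ℕ) (X : Type) [TopologicalSpace X] [T2Space X] [CompactSpace X] [ConnectedSpace X]
    [ChartedSpace (Cm n) X] [IsManifold 𝓘(ℂ, Cm n) ω X]
    (w : Chart n X → Cm n → Matrix (Fin n) (Fin n) ℂ)
    (E Γ : Type) [TopologicalSpace E] [ConnectedSpace E] [Group Γ] [MulAction Γ E]
    (p : E → X), IsGalois Γ p →
    ∀ (F : E → Cm q) (c : Γ → Cm q), Per p w F c →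
    ∀ (W : Type) [NormedAddCommGroup W] [InnerProductSpace ℂ W] [CompleteSpace W] (h : E → W),
      SheetFun n Γ p F h →
    ∃ (r m : ℕ) (π : Cm q →L[ℂ] Cm r) (H : Type) (_ : NormedAddCommGroup H)
      (_ : InnerProductSpace ℂ H) (_ : CompleteSpace H)
      (v : E → Chart n X → (Fin r → Cm n) → H),
      1 ≤ q ∧ 1 ≤ r ∧ 1 ≤ m ∧ Function.Surjective π ∧ (∃ y, Reg (n := n) p F y) ∧
      (∀ y, Reg (n := n) p F y → ∃ f : Cm r → W, AnalyticAt ℂ f (π (F y)) ∧
        (∀ᶠ y' in 𝓝 y, h y' = f (π (F y'))) ∧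
        ∀ v : Cm r, (∀ᶠ a in 𝓝 (π (F y)), fderiv ℂ f a v = 0) → v = 0) ∧
      HForm n r m p H v ∧ Eqv Γ p v ∧
      (∀ g : Γ, (∀ y, Reg (n := n) p F y → h (g • y) = h y) →
        ∀ y e, At e (p y) → ∀ ξ, v (g • y) e ξ = v y e ξ) ∧
      ∃ y₀ e b γ t, NFF m p v (fun y => π (F y)) y₀ e b γ t

/-- the isometry of the product of copies of `W` -/
def isoP {W ι : Type} [NormedAddCommGroup W] [InnerProductSpace ℂ W] [Fintype ι] (U : W →ₗᵢ[ℂ] W) :
    WithLp 2 (ℂ × PiLp 2 (fun _ : ι => W)) →ₗᵢ[ℂ] WithLp 2 (ℂ × PiLp 2 (fun _ : ι => W)) where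
  toFun x := WithLp.toLp 2 (x.fst, WithLp.toLp 2 fun i => U (x.snd i))
  map_add' x y := congrArg (WithLp.toLp 2) (Prod.ext rfl
    (congrArg (WithLp.toLp 2) (funext fun i => map_add U (x.snd i) (y.snd i))))
  map_smul' a x := congrArg (WithLp.toLp 2) (Prod.ext rfl
    (congrArg (WithLp.toLp 2) (funext fun i => map_smul U a (x.snd i))))
  norm_map' x := by
    show ‖WithLp.toLp 2 (x.fst, WithLp.toLp 2 fun i => U (x.snd i))‖ = ‖x‖
    rw [WithLp.prod_norm_eq_of_L2, WithLp.prod_norm_eq_of_L2]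
    simp only [WithLp.toLp_fst, WithLp.toLp_snd]
    rw [PiLp.norm_eq_of_L2, PiLp.norm_eq_of_L2]
    simp only [U.norm_map]

theorem tailEqStmt : TailEqStmt := by
  intro n q X _ _ _ _ _ _ w E Γ _ _ _ _ p hp F c hP W _ _ _ h hS
  obtain ⟨B, hB⟩ := hP.hol
  have hex : ∃ y, Reg (n := n) p F y := by
    obtain ⟨y, -, hy, -⟩ := hS.ne
    exact ⟨y, hy⟩
  -- `q ≥ 1`
  have hq : 1 ≤ q := by
    by_contra hq0
    have hq0' : q = 0 := by omega
    subst hq0'
    have hreg : ∀ y, Reg (n := n) p F y := fun y e f _ _ => Function.surjective_to_subsingleton _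
    have hlc : IsLocallyConstant h := by
      rw [IsLocallyConstant.iff_eventually_eq]
      intro y
      obtain ⟨f, -, hf⟩ := hS.loc y (hreg y)
      filter_upwards [hf] with y' hy'
      rw [hy', hf.self_of_nhds, Subsingleton.elim (F y') (F y)]
    obtain ⟨y, y', -, -, hne⟩ := hS.ne
    exact hne (hlc.apply_eq_of_preconnectedSpace y y')
  obtain ⟨r, π, hr, hπ, hloc⟩ := exists_pi hq hp.cov hB hS.loc hS.ne
  set t : E → Cm r := fun y => π (F y) with ht
  have htB := holB_comp (p := p) (w := w) π hB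
  set R : Set E := {y | Reg (n := n) p F y} with hR
  have hRo : IsOpen R := reg_open hp.cov hB
  have hRd : Dense R := reg_dense hq hp.cov hB hex
  have hRr : ∀ y ∈ R, Reg (n := n) p t y := fun y hy => reg_comp hp.cov π hπ hB hy
  have hRg : ∀ (g : Γ) (y : E), g • y ∈ R ↔ y ∈ R := fun g y => hP.reg_smul_iff hp g y
  have hext : ∃ y, Reg (n := n) p t y := by
    obtain ⟨y, hy⟩ := hex
    exact ⟨y, hRr y hy⟩
  have hg : ∀ g : Γ, ∃ a, ∀ y, t (g • y) = t y + a := by
    intro g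
    refine ⟨π (c g), fun y => ?_⟩
    show π (F (g • y)) = π (F y) + π (c g)
    rw [hP.equiv, map_add]
  have hGF : GF n p t R h := by
    refine ⟨fun y hy => no_pole hq hp hP hex hS π hπ (fun y hy => ?_) hy, fun y e he => ?_⟩
    · obtain ⟨f, h1, h2, -⟩ := hloc y hy
      exact ⟨f, h1, h2⟩
    · obtain ⟨ε, hε, hyε, -, hc⟩ := exists_ch_at hp.cov he univ_mem
      obtain ⟨ζ, hma, hm0, -⟩ := exists_minor hq hp.cov hB hex hε hc hyε
      have hz : e (p y) = ε y := (hε.eq y hyε).symm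
      have hFa : AnalyticAt ℂ (F ∘ ε.symm) (e (p y)) := by
        rw [hz]
        exact IsCh.analytic hε hB _ (ε.map_source hyε)
      obtain ⟨φ, hφa, hφ⟩ := hS.ext y e (F ∘ ε.symm) he hFa (hε.ev hyε) ζ
      have hm1 : AnalyticAt ℂ (fun z => (Matrix.of fun i j =>
          fderiv ℂ (F ∘ ε.symm) z (ζ j) i).det) (e (p y)) := by
        rw [hz]
        exact hma _ (ε.map_source hyε)
      have hm2 : ¬ ∀ᶠ z in 𝓝 (e (p y)), (Matrix.of fun i j =>
          fderiv ℂ (F ∘ ε.symm) z (ζ j) i).det = 0 := by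
        rw [hz]
        exact hm0
      exact ⟨fun z => (Matrix.of fun i j => fderiv ℂ (F ∘ ε.symm) z (ζ j) i).det, φ, hm1, hφa,
        hm2, hφ⟩
  have hU : ∀ g : Γ, ∃ U : W →ₗᵢ[ℂ] W, ∀ y ∈ R, h (g • y) = U (h y) := fun g => hS.equiv g
  -- the point and the local function
  obtain ⟨y₀, hy₀⟩ := hex
  have hy₀R : y₀ ∈ R := hy₀
  obtain ⟨f, hfa, hf, hfn⟩ := hloc y₀ hy₀
  -- the order of the jets
  let N : ℕ → Submodule ℂ (Cm r) := fun k =>
    { carrier := {η | ∀ i ≤ k, ∀ s : Fin i → Fin r,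
        fderiv ℂ (fun a => iteratedFDeriv ℂ i f a fun j => Pi.single (s j) 1) (t y₀) η = 0}
      zero_mem' := by
        intro i _ s
        exact map_zero _
      add_mem' := by
        intro η η' h1 h2 i hi s
        rw [map_add, h1 i hi s, h2 i hi s, add_zero]
      smul_mem' := by
        intro b η h1 i hi s
        rw [map_smul, h1 i hi s, smul_zero] }
  have hanti : Antitone N := fun k l hkl η hη i hi s => hη i (hi.trans hkl) s
  obtain ⟨k, hk⟩ := IsArtinian.monotone_stabilizes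
    (⟨fun k => OrderDual.toDual (N k), fun k l hkl => hanti hkl⟩ : ℕ →o (Submodule ℂ (Cm r))ᵒᵈ)
  have hk' : ∀ l, k ≤ l → N k = N l := fun l hl => hk l hl
  have hNk : ∀ η ∈ N k, η = 0 := by
    intro η hη
    refine hfn η (taylor_zero hfa fun i s => ?_)
    have h1 : η ∈ N (max k i) := by
      rw [← hk' _ (le_max_left _ _)]
      exact hη
    exact h1 i (le_max_right _ _) s
  -- the functions
  let u : (Σ i : Fin (k + 1), (Fin i → Fin r)) → E → W := fun x =>
    jet t h x.1 fun j => Pi.single (x.2 j) 1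
  have huGF : ∀ x, GF n p t R (u x) := fun x =>
    jet_GF hr hp.cov htB hRo hRr hext hGF _ _
  have huU : ∀ x, ∀ g : Γ, ∃ U : W →ₗᵢ[ℂ] W, ∀ y ∈ R, u x (g • y) = U (u x y) := by
    intro x g
    obtain ⟨a, ha⟩ := hg g
    obtain ⟨U, hU'⟩ := hU g
    exact ⟨U, jet_smul hr hp htB hRo hRr hext hRg hGF ha hU' _ _⟩
  have h1GF : GF n p t R (fun _ : E => (1 : ℂ)) := GF_const 1
  have h1U : ∀ g : Γ, ∃ U : ℂ →ₗᵢ[ℂ] ℂ, ∀ y ∈ R,
      (fun _ : E => (1 : ℂ)) (g • y) = U ((fun _ : E => (1 : ℂ)) y) := fun g =>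
    ⟨LinearIsometry.id, fun y _ => rfl⟩
  choose M₁ hM₁ using fun x => ext_all hp htB hRo hRd hRr hRg hg (huGF x) (huU x)
  obtain ⟨M₂, hM₂⟩ := ext_all hp htB hRo hRd hRr hRg hg h1GF h1U
  set M : ℕ := Finset.univ.sup M₁ + M₂ + 1 with hM
  have hMu : ∀ x (y : E) (e : Chart n X), At e (p y) → ExtAt p t R (u x) M y e := fun x =>
    hM₁ x M (by
      have := Finset.le_sup (f := M₁) (Finset.mem_univ x)
      omega)
  have hM1 : ∀ (y : E) (e : Chart n X), At e (p y) →
      ExtAt p t R (fun _ : E => (1 : ℂ)) M y e := hM₂ M (by omega)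
  have hv₁ := hform_vl hp htB hRd hRg hg h1U hM1
  have hv₂ := hform_pi fun x => hform_vl hp htB hRd hRg hg (huU x) (hMu x)
  have hv := hform_prod hv₁ hv₂
  refine ⟨r, M, π, _, _, _, inferInstance, _, hq, hr, by omega, hπ, ⟨y₀, hy₀⟩, hloc, hv,
    ?_, ?_, ?_⟩
  · intro g
    obtain ⟨a, ha⟩ := hg g
    obtain ⟨U, hU'⟩ := hU g
    refine ⟨isoP U, fun y e he ξ => ?_⟩
    have h1 : vl p t R (fun _ : E => (1 : ℂ)) M (g • y) e ξ =
        vl p t R (fun _ : E => (1 : ℂ)) M y e ξ :=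
      vl_smul hp htB hRd hRg ha (U := LinearIsometry.id) (fun y _ => rfl) hM1 he ξ
    have h2 : ∀ x, vl p t R (u x) M (g • y) e ξ = U (vl p t R (u x) M y e ξ) := fun x =>
      vl_smul hp htB hRd hRg ha (jet_smul hr hp htB hRo hRr hext hRg hGF ha hU' _ _) (hMu x) he ξ
    show WithLp.toLp 2 (_, WithLp.toLp 2 _) = WithLp.toLp 2 (_, WithLp.toLp 2 _)
    rw [h1]
    congr 2
    congr 1
    funext x
    exact h2 x
  · intro g hgh y e he ξ
    obtain ⟨a, ha⟩ := hg g
    have h1 : vl p t R (fun _ : E => (1 : ℂ)) M (g • y) e ξ =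
        vl p t R (fun _ : E => (1 : ℂ)) M y e ξ :=
      vl_smul hp htB hRd hRg ha (U := LinearIsometry.id) (fun y _ => rfl) hM1 he ξ
    have h2 : ∀ x, vl p t R (u x) M (g • y) e ξ = vl p t R (u x) M y e ξ := fun x =>
      vl_smul hp htB hRd hRg ha (U := LinearIsometry.id)
        (jet_smul hr hp htB hRo hRr hext hRg hGF ha (U := LinearIsometry.id)
          (fun y hy => hgh y hy) _ _) (hMu x) he ξ
    show WithLp.toLp 2 (_, WithLp.toLp 2 _) = WithLp.toLp 2 (_, WithLp.toLp 2 _)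
    rw [h1]
    congr 2
    congr 1
    funext x
    exact h2 x
  -- the good point
  obtain ⟨e, ε, hε, hyε, -, -⟩ := exists_ch (n := n) hp.cov y₀ univ_mem
  have hz : e (p y₀) = ε y₀ := (hε.eq y₀ hyε).symm
  have hzt : ε y₀ ∈ ε.target := ε.map_source hyε
  have hTa := IsCh.analytic hε htB
  have hbz : (t ∘ ε.symm) (e (p y₀)) = t y₀ := by
    rw [hz, Function.comp_apply, ε.left_inv hyε]
  set γ₂ : Cm r → PiLp 2 (fun _ : (Σ i : Fin (k + 1), (Fin i → Fin r)) => W) := fun a =>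
    WithLp.toLp 2 fun x => iteratedFDeriv ℂ x.1 f a fun j => Pi.single (x.2 j) 1 with hγ₂
  have hγ₂a : AnalyticAt ℂ γ₂ (t y₀) :=
    ((PiLp.continuousLinearEquiv 2 ℂ fun _ : (Σ i : Fin (k + 1), (Fin i → Fin r)) =>
      W).symm.toContinuousLinearMap.analyticAt _).comp
      (AnalyticAt.pi fun x => iter_analytic hfa _ _)
  set γ : Cm r → WithLp 2 (ℂ × PiLp 2 (fun _ : (Σ i : Fin (k + 1), (Fin i → Fin r)) => W)) :=
    fun a => WithLp.toLp 2 (1, γ₂ a) with hγ
  have hγa : AnalyticAt ℂ γ (t y₀) :=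
    ((WithLp.prodContinuousLinearEquiv 2 ℂ ℂ (PiLp 2 (fun _ : (Σ i : Fin (k + 1),
      (Fin i → Fin r)) => W))).symm.toContinuousLinearMap.analyticAt _).comp
      (analyticAt_const.prod hγ₂a)
  refine ⟨y₀, e, t ∘ ε.symm, γ, id, ?_⟩
  refine ⟨?_, analyticAt_id, hε.ev (F := t) hyε⟩
  refine ⟨hε.at hyε, ?_, ?_, ?_, ?_, ?_⟩
  · rw [hz]
    exact hTa _ hzt
  · rw [hz]
    exact (hε.reg_iff hp.cov htB hyε).1 (hRr y₀ hy₀R)
  · rw [hbz]
    exact hγa
  · rw [hbz]
    refine ⟨?_, ?_⟩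
    · intro h0
      have h1 : (γ (t y₀)).fst = 0 := by rw [h0]; rfl
      exact one_ne_zero h1
    · intro η b hηb
      apply hNk η
      -- the first component
      let L₁ : WithLp 2 (ℂ × PiLp 2 (fun _ : (Σ i : Fin (k + 1), (Fin i → Fin r)) => W)) →L[ℂ] ℂ :=
        (ContinuousLinearMap.fst ℂ ℂ _).comp
          (WithLp.prodContinuousLinearEquiv 2 ℂ ℂ (PiLp 2 (fun _ : (Σ i : Fin (k + 1),
            (Fin i → Fin r)) => W))).toContinuousLinearMap
      let L₂ : WithLp 2 (ℂ × PiLp 2 (fun _ : (Σ i : Fin (k + 1), (Fin i → Fin r)) => W)) →L[ℂ]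
          (∀ _ : (Σ i : Fin (k + 1), (Fin i → Fin r)), W) :=
        (PiLp.continuousLinearEquiv 2 ℂ fun _ : (Σ i : Fin (k + 1), (Fin i → Fin r)) =>
          W).toContinuousLinearMap.comp ((ContinuousLinearMap.snd ℂ ℂ _).comp
          (WithLp.prodContinuousLinearEquiv 2 ℂ ℂ (PiLp 2 (fun _ : (Σ i : Fin (k + 1),
            (Fin i → Fin r)) => W))).toContinuousLinearMap)
      have h1 : fderiv ℂ (fun a => L₁ (γ a)) (t y₀) = L₁.comp (fderiv ℂ γ (t y₀)) :=
        (L₁.hasFDerivAt.comp _ hγa.differentiableAt.hasFDerivAt).fderiv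
      have h2 : (fun a => L₁ (γ a)) = fun _ => (1 : ℂ) := rfl
      have h3 : b = 0 := by
        have h4 := congrArg (fun L : Cm r →L[ℂ] ℂ => L η) h1
        simp only [ContinuousLinearMap.comp_apply] at h4
        rw [h2, hηb, map_smul] at h4
        have h5 : L₁ (γ (t y₀)) = 1 := rfl
        rw [h5] at h4
        simpa using h4.symm
      rw [h3, zero_smul] at hηb
      intro i hi s
      let x : (Σ i : Fin (k + 1), (Fin i → Fin r)) := ⟨⟨i, by omega⟩, s⟩
      let L : WithLp 2 (ℂ × PiLp 2 (fun _ : (Σ i : Fin (k + 1), (Fin i → Fin r)) => W)) →L[ℂ] W :=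
        (ContinuousLinearMap.proj x).comp L₂
      have h4 : fderiv ℂ (fun a => L (γ a)) (t y₀) = L.comp (fderiv ℂ γ (t y₀)) :=
        (L.hasFDerivAt.comp _ hγa.differentiableAt.hasFDerivAt).fderiv
      have h5 : (fun a => L (γ a)) =
          fun a => iteratedFDeriv ℂ i f a fun j => Pi.single (s j) 1 := rfl
      rw [h5] at h4
      rw [h4, ContinuousLinearMap.comp_apply, hηb, map_zero]
  · -- the normal form
    have hj : ∀ᶠ y in 𝓝 y₀, ∀ x : (Σ i : Fin (k + 1), (Fin i → Fin r)), u x y =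
        iteratedFDeriv ℂ x.1 f (t y) fun j => Pi.single (x.2 j) 1 :=
      eventually_all.2 fun x => jet_loc hp.cov htB hRo hRr hy₀R hfa hf _ _
    filter_upwards [hj, hRo.mem_nhds hy₀R, ε.open_source.mem_nhds hyε] with y h1 h2 h3 ξ
    have hzy : e (p y) = ε y := (hε.eq y h3).symm
    have hey : At e (p y) := hε.at h3
    have hby : (t ∘ ε.symm) (e (p y)) = t y := by
      rw [hzy, Function.comp_apply, ε.left_inv h3]
    rw [hby, hzy, ← dt_ch hp.cov htB hε h3]
    rw [vl_mem hp.cov hRd hey (hM1 y e hey) h2 ξ]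
    have h4 : (fun x => vl p t R (u x) M y e ξ) = dt p t y e ξ ^ M •
        fun x : (Σ i : Fin (k + 1), (Fin i → Fin r)) =>
          iteratedFDeriv ℂ x.1 f (t y) fun j => Pi.single (x.2 j) 1 := by
      funext x
      rw [vl_mem hp.cov hRd hey (hMu x y e hey) h2 ξ, h1 x]
      rfl
    rw [h4]
    rfl


end Vale.Agent.P284.H224
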