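import Vale.Agent.P284.H224.Rat
import Vale.Agent.P284.H224.TailEq
import Vale.Agent.P284.H224.Mult
import Vale.Agent.P284.H213.MF.MfU
import Vale.Agent.P284.H279.FinL
import Vale.Agent.P284.H174.AlbD

/-!
# P284 (helper224), T1': MF for special manifolds
-/

open scoped Manifold ContDiff Topology ENNReal
open Filter Set Metric MeasureTheory

noncomputable section

namespace Vale.Agent.P284.H224

open Vale.Agent.P272.K Vale.Agent.P284.H894.W Vale.Agent.P284.H894.G Vale.Agent.P284.H10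
  Vale.Agent.P284.H573 Vale.Agent.P284.H494 Vale.Agent.P284.H837 Vale.Agent.P284.H672
  Vale.Agent.P284.H279 Vale.Agent.P284.H213.MF Vale.Agent.P284.H213.Grp Vale.Agent.P284.H213.Q
  Vale.Agent.P284.H174 Vale.Agent.P284.H998

/-- the periods of a map with a regular point form a lattice -/
theorem lat_of_per {n q : ℕ} {X : Type} [TopologicalSpace X] [T2Space X] [CompactSpace X]
    [ConnectedSpace X] [ChartedSpace (Cm n) X] [IsManifold 𝓘(ℂ, Cm n) ω X]
    {w : Chart n X → Cm n → Matrix (Fin n) (Fin n) ℂ}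
    {E Γ : Type} [TopologicalSpace E] [ConnectedSpace E] [Group Γ] [MulAction Γ E]
    {p : E → X} (hp : IsGalois Γ p) {F : E → Cm q} {c : Γ → Cm q} (hP : Per p w F c)
    (hex : ∃ y, Reg (n := n) p F y) : LatChar Γ q c := by
  obtain ⟨hRo, hRd, -, -, -, hne, -⟩ := rvStmt n q X w E Γ p hp F c hP hex
  have hFc := hP.continuous hp.cov
  have hadd : ∀ g k : Γ, c (g * k) = c g + c k := hP.add
  have hone : c (1 : Γ) = 0 := by
    have := hadd 1 1
    rw [mul_one] at this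
    exact left_eq_add.1 this
  have hinv : ∀ g : Γ, c g⁻¹ = -c g := by
    intro g
    have := hadd g g⁻¹
    rw [mul_inv_cancel, hone] at this
    exact (neg_eq_of_add_eq_zero_right this.symm).symm
  let Λ : AddSubgroup (Cm q) :=
    { carrier := Set.range c
      add_mem' := by
        rintro _ _ ⟨g, rfl⟩ ⟨k, rfl⟩
        exact ⟨g * k, hadd g k⟩
      zero_mem' := ⟨1, hone⟩
      neg_mem' := by
        rintro _ ⟨g, rfl⟩
        exact ⟨g⁻¹, hinv g⟩ }
  obtain ⟨C, hC, hcov⟩ := exists_compact_X hp n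
  obtain ⟨M, hM⟩ := (hC.image hFc).isBounded.exists_norm_le
  have hcoc : Coco Λ := by
    refine ⟨M + 1, fun z => ?_⟩
    obtain ⟨z', hz', hz'R⟩ := Metric.dense_iff.1 hRd z 1 one_pos
    obtain ⟨y, hy⟩ := hne z' hz'R
    have hy' : F y = z' := hy
    obtain ⟨g, hg⟩ := hcov y
    refine ⟨c g⁻¹, ⟨g⁻¹, rfl⟩, ?_⟩
    have h1 := hM (F (g • y)) ⟨_, hg, rfl⟩
    rw [hP.equiv, hy'] at h1
    rw [hinv, sub_neg_eq_add]
    rw [mem_ball, dist_eq_norm] at hz'
    calc ‖z + c g‖ = ‖(z' + c g) - (z' - z)‖ := by congr 1; abel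
      _ ≤ ‖z' + c g‖ + ‖z' - z‖ := norm_sub_le _ _
      _ ≤ M + 1 := by linarith
  refine ⟨hadd, hP.disc, ?_⟩
  have h1 := H661.span_eq_of_near (Λ := Λ) hcoc (⊤ : Submodule ℝ (Cm q)) one_pos
    (fun l _ _ => trivial)
  rw [eq_top_iff, ← h1]
  refine Submodule.span_mono ?_
  rintro x ⟨hx, -⟩
  exact hx

/-- **MF(II)** for the classes with `NoFE` -/
theorem noRamD_of_noFE {D : Cls}
    (hD : ∀ (n : ℕ) (X : Type) [TopologicalSpace X] [T2Space X] [CompactSpace X] [ConnectedSpace X]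
      [ChartedSpace (Cm n) X] [IsManifold 𝓘(ℂ, Cm n) ω X] (ι : Type) [Fintype ι] (_ : PJ n X ι),
      D n X → NoFE n X) : NoRamD D := by
  intro n q X _ _ _ _ _ _ ι _ J hDX w hw E Γ _ _ _ _ p hp F c hF hreg hc Ed hEd hne hcrit hdir
  obtain ⟨m, k, γ, v, hq, hm, hv, hinv, -, -, -, y, -, hy⟩ := multStmt n q X w E Γ p hp F c hF hreg
    (per c hc) (fun g => ⟨g, rfl⟩) (coco_of hc) Ed hEd hne hcrit hdir
  exact hD n X ι J hDX E Γ p hp ⊤ inferInstance q m hq hm _ v hv (fun g _ => hinv g) ⟨y, hy⟩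

/-- the class of special manifolds (with all finite coverings) -/
def spC : Cls := fun n X _ _ => FSp n X

/-- **MF(I)** for special manifolds -/
theorem oneD_sp (hSp : SpStmt) (hRat : RatStmt) : OneD spC := by
  intro n q X _ _ _ _ _ _ ι _ J hD w hw E Γ _ _ _ _ p hp F c hF hreg y y' hyy hrv
  by_contra hcon
  push Not at hcon
  obtain ⟨h, hh⟩ := exStmt n q X ι J w hw E Γ p hp F c hF y y' hyy hrv hcon
  obtain ⟨W, _, _, _, h₁, hs, hU, hne, hker⟩ := H661.Lim.limStmt' n q X w E Γ p hp F c hF h hh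
  obtain ⟨s, hs1, hs2⟩ := t5Stmt n q X ι J w E Γ p hp F c hF hreg W h₁ hs (by
    intro g _ y hy
    obtain ⟨U, hU⟩ := hU g
    rw [hU y hy, U.norm_map])
  have hS : SheetFun n Γ p F h₁ :=
    { loc := hs.loc, ext := hs.ext, equiv := hU, int := ⟨s, hs1, hs2⟩, ne := hne }
  obtain ⟨r, m, π, H, _, _, _, v, hq, hr, hm, hπ, -, hloc, hv, heqv, hfix, hnf⟩ :=
    tailEqStmt n q X w E Γ p hp F c hF W h₁ hS
  have hlat := hRat n q r X w E Γ p hp F c hF (lat_of_per hp hF hreg) hreg W h₁ hS π hπ hloc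
  obtain ⟨B, hB⟩ := hF.hol
  have hloc' : ∀ y, Reg (n := n) p F y → ∃ f : Cm r → W, AnalyticAt ℂ f (π (F y)) ∧
      ∀ᶠ y' in 𝓝 y, h₁ y' = f (π (F y')) := by
    intro y hy
    obtain ⟨f, h1, h2, -⟩ := hloc y hy
    exact ⟨f, h1, h2⟩
  have hequiv : ∀ (g : Γ) (y : E), π (F (g • y)) = π (F y) + π (c g) := by
    intro g y
    rw [hF.equiv, map_add]
  refine hSp n X ι J (special_of_fsp hD) E Γ p hp r (fun y => π (F y)) (fun g => π (c g)) ?_ hequiv
    H r m hr hm v hv heqv hnf ?_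
  · intro y e he
    obtain ⟨f, h1, h2, -⟩ := hB y e he
    refine ⟨fun z => π (f z), h1.mono fun y' h => by rw [h], ?_⟩
    have h3 := (Vale.Agent.P299.H720.contDiffAt_of_eventually h2).analyticAt
    exact (π.analyticAt _).comp h3
  · have hFc := hF.continuous hp.cov
    refine Fin.lfin_of_finidx hequiv (π.continuous.comp hFc) hlat.disc (Fin.fixS h₁ hp hF π)
      (fun g hg => hg.1) (fun g hg => hfix g hg.2)
      (Fin.fin_of hq hp hF hreg hU (fun g hg y hy => ?_) π hπ hloc')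
    exact hker g hg y hy

/-- **MF** for special manifolds -/
theorem mfSp_of' (hSp : SpStmt) (hRat : RatStmt) : MFSpStmt :=
  mfD_of (D := spC) (oneD_sp hSp hRat) rvStmt preStmt (br_of d1Stmt topStmt)
    (noRamD_of_noFE fun _ _ _ _ _ _ _ _ _ _ J hD => noFE_special hSp J (special_of_fsp hD))

theorem mfSp_of (hSp : SpStmt) (hL : LineStmt) : MFSpStmt := mfSp_of' hSp (rat_of hL)

end Vale.Agent.P284.H224
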