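import Vale.Agent.P284.H494.TailS
import Vale.Agent.P284.H10.S4i

/-!
# P284 (helper224), MF(II), (D2): topology of the fibres, statements

`F : E → ℂ^q` holomorphic with periods (`Per`). If two components of a regular fibre are always
equivalent under the kernel of the period map (`One`), and the set of the values whose fibre has no
regular point is small (codimension `≥ 2`) in a convex open set `O` with `F⁻¹(O)` connected, then all
regular fibres are connected.
-/

open scoped Manifold ContDiff Topology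
open Filter Set Metric

noncomputable section

namespace Vale.Agent.P284.H224

open Vale.Agent.P272.K Vale.Agent.P284.H894.G Vale.Agent.P284.H894.W Vale.Agent.P284.H494

section
variable {X : Type} [TopologicalSpace X] {E : Type} [TopologicalSpace E]

/-- The values whose fibre contains no regular point (a closed set). -/
def NR (n : ℕ) [ChartedSpace (Cm n) X] (p : E → X) {q : ℕ} (F : E → Cm q) : Set (Cm q) :=
  {t | ∀ y, F y = t → ¬ Reg (n := n) p F y}

/-- `d = 1`: any two components of a regular fibre are equivalent under the kernel of `c`. -/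
def One (n : ℕ) (Γ : Type) [Group Γ] [MulAction Γ E] [ChartedSpace (Cm n) X] (p : E → X) {q : ℕ}
    (F : E → Cm q) (c : Γ → Cm q) : Prop :=
  ∀ y y' : E, F y' = F y → F y ∈ RV n p F → ∃ g : Γ, c g = 0 ∧ Same F (g • y) y'

end

/-- The set `S ⊆ ℂ^q` is small: empty, or covered by countably many images of `ℂ^{q-2}`. -/
def Small (q : ℕ) (S : Set (Cm q)) : Prop := S = ∅ ∨ 2 ≤ q ∧ H10.Cov (q - 2) S

/-- **(D2)** -/
def TopStmt : Prop :=
  ∀ (n q : ℕ) (X : Type) [TopologicalSpace X] [T2Space X] [CompactSpace X] [ConnectedSpace X]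
    [ChartedSpace (Cm n) X] [IsManifold 𝓘(ℂ, Cm n) ω X]
    (w : Chart n X → Cm n → Matrix (Fin n) (Fin n) ℂ)
    (E Γ : Type) [TopologicalSpace E] [ConnectedSpace E] [Group Γ] [MulAction Γ E]
    (p : E → X), IsGalois Γ p →
    ∀ (F : E → Cm q) (c : Γ → Cm q), Per p w F c → (∃ y, Reg (n := n) p F y) → One n Γ p F c →
    ∀ O : Set (Cm q), IsOpen O → Convex ℝ O → O.Nonempty → IsPreconnected (F ⁻¹' O) →
      Small q (NR n p F ∩ O) → ∀ t ∈ RV n p F, IsConnected (F ⁻¹' {t})

/-- General facts about regular values: they form an open set, the complement is thin, all regular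
values are taken; if one regular fibre is connected, all are. -/
def RVStmt : Prop :=
  ∀ (n q : ℕ) (X : Type) [TopologicalSpace X] [T2Space X] [CompactSpace X] [ConnectedSpace X]
    [ChartedSpace (Cm n) X] [IsManifold 𝓘(ℂ, Cm n) ω X]
    (w : Chart n X → Cm n → Matrix (Fin n) (Fin n) ℂ)
    (E Γ : Type) [TopologicalSpace E] [ConnectedSpace E] [Group Γ] [MulAction Γ E]
    (p : E → X), IsGalois Γ p →
    ∀ (F : E → Cm q) (c : Γ → Cm q), Per p w F c → (∃ y, Reg (n := n) p F y) →
    IsOpen (RV n p F) ∧ Dense (RV n p F) ∧ IsPreconnected (RV n p F) ∧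
    (1 ≤ q → H10.Cov (q - 1) (RV n p F)ᶜ) ∧ IsClosed (NR n p F) ∧
    (∀ t ∈ RV n p F, (F ⁻¹' {t}).Nonempty) ∧
    ((∃ t ∈ RV n p F, IsConnected (F ⁻¹' {t})) → ∀ t ∈ RV n p F, IsConnected (F ⁻¹' {t}))

/-- **Preimages of convex sets**: if the regular fibres are connected, the preimage of every convex open
set is connected. -/
def PreStmt : Prop :=
  ∀ (n q : ℕ) (X : Type) [TopologicalSpace X] [T2Space X] [CompactSpace X] [ConnectedSpace X]
    [ChartedSpace (Cm n) X] [IsManifold 𝓘(ℂ, Cm n) ω X]
    (w : Chart n X → Cm n → Matrix (Fin n) (Fin n) ℂ)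
    (E Γ : Type) [TopologicalSpace E] [ConnectedSpace E] [Group Γ] [MulAction Γ E]
    (p : E → X), IsGalois Γ p →
    ∀ (F : E → Cm q) (c : Γ → Cm q), Per p w F c → (∃ y, Reg (n := n) p F y) →
      (∀ t ∈ RV n p F, IsConnected (F ⁻¹' {t})) →
    ∀ O : Set (Cm q), IsOpen O → Convex ℝ O → IsPreconnected (F ⁻¹' O)

end Vale.Agent.P284.H224
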