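import Vale.Agent.P284.H224.TopS
import Vale.Agent.P284.H35.S4b

/-!
# P284 (helper224), (D2): basic facts for a map with periods
-/

open scoped Manifold ContDiff Topology
open Filter Set Metric

noncomputable section

namespace Vale.Agent.P284.H224

open Vale.Agent.P272.K Vale.Agent.P284.H894.G Vale.Agent.P284.H894.W Vale.Agent.P284.H494
  Vale.Agent.P284.H10

section
variable {n : ℕ} {X : Type} [TopologicalSpace X] [ChartedSpace (Cm n) X] {E : Type}
  [TopologicalSpace E] {p : E → X} {Γ : Type} [Group Γ] [MulAction Γ E]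
  {w : Chart n X → Cm n → Matrix (Fin n) (Fin n) ℂ} {q : ℕ} {F : E → Cm q} {c : Γ → Cm q}

theorem per_cont (hp : IsCoveringMap p) (hA : Per p w F c) : Continuous F := by
  obtain ⟨B, hB⟩ := hA.hol
  exact hol_continuous hp hB

theorem per_add [Nonempty E] (hA : Per p w F c) (g h : Γ) : c (g * h) = c g + c h := by
  obtain ⟨y⟩ := ‹Nonempty E›
  have h1 := hA.equiv (g * h) y
  rw [mul_smul, hA.equiv g, hA.equiv h, add_assoc] at h1
  have h2 := add_left_cancel h1
  rw [← h2, add_comm]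

theorem per_one [Nonempty E] (hA : Per p w F c) : c 1 = 0 := by
  have := per_add hA 1 1
  rw [mul_one] at this
  simpa using this

theorem per_inv [Nonempty E] (hA : Per p w F c) (g : Γ) : c g⁻¹ = -c g := by
  have := per_add hA g g⁻¹
  rw [mul_inv_cancel, per_one hA] at this
  exact (neg_eq_of_add_eq_zero_right this.symm).symm

/-- the kernel of the period map -/
def ker [Nonempty E] (hA : Per p w F c) : Subgroup Γ where
  carrier := {g | c g = 0}
  mul_mem' := by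
    intro a b ha hb
    show c (a * b) = 0
    rw [per_add hA, show c a = 0 from ha, show c b = 0 from hb, add_zero]
  one_mem' := per_one hA
  inv_mem' := by
    intro a ha
    show c a⁻¹ = 0
    rw [per_inv hA, show c a = 0 from ha, neg_zero]

theorem mem_ker [Nonempty E] (hA : Per p w F c) {g : Γ} : g ∈ ker hA ↔ c g = 0 := Iff.rfl

theorem ker_smul [Nonempty E] (hA : Per p w F c) {k : Γ} (hk : k ∈ ker hA) (y : E) :
    F (k • y) = F y := by
  rw [hA.equiv k, (mem_ker hA).1 hk, add_zero]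

/-- the kernel acts cocompactly over balls -/
theorem per_compact [CompactSpace X] [Nonempty E] (hp : IsGalois Γ p)
    (hA : Per p w F c) (r : ℝ) :
    ∃ C : Set E, IsCompact C ∧ ∀ y, ‖F y‖ ≤ r → ∃ k ∈ ker hA, k • y ∈ C := by
  obtain ⟨C, hC, hcov⟩ := exists_compact_X hp n
  have hFc := per_cont hp.cov hA
  obtain ⟨M, hM⟩ := hC.exists_bound_of_continuousOn hFc.continuousOn
  have hfin := hA.disc (r + M)
  have hch : ∀ v ∈ {v | (∃ g : Γ, c g = v) ∧ ‖v‖ ≤ r + M}, ∃ g : Γ, c g = v := fun v hv => hv.1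
  choose! s hs using hch
  refine ⟨⋃ v ∈ {v | (∃ g : Γ, c g = v) ∧ ‖v‖ ≤ r + M}, (fun y => (s v)⁻¹ • y) '' C,
    hfin.isCompact_biUnion fun v _ => hC.image (hp.cont _), fun y hy => ?_⟩
  obtain ⟨g, hgy⟩ := hcov y
  have h1 : c g ∈ {v | (∃ g : Γ, c g = v) ∧ ‖v‖ ≤ r + M} := by
    refine ⟨⟨g, rfl⟩, ?_⟩
    have h2 := hA.equiv g y
    have h3 : c g = F (g • y) - F y := by rw [h2]; simp
    rw [h3]
    have h4 := norm_sub_le (F (g • y)) (F y)
    have h5 := hM _ hgy
    linarith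
  refine ⟨(s (c g))⁻¹ * g, ?_, mem_iUnion₂.2 ⟨c g, h1, g • y, hgy, ?_⟩⟩
  · rw [mem_ker, per_add hA, per_inv hA, hs _ h1, neg_add_cancel]
  · show (s (c g))⁻¹ • g • y = _
    rw [mul_smul]

theorem per_reg_smul (hp : IsGalois Γ p) (hA : Per p w F c) {g : Γ} {y : E}
    (hr : Reg (n := n) p F (g • y)) : Reg (n := n) p F y := by
  intro e f he hf
  have h1 : Tendsto (fun y' => g⁻¹ • y') (𝓝 (g • y)) (𝓝 y) := by
    have := (hp.cont g⁻¹).tendsto (g • y)
    simpa using this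
  have h2 : ∀ᶠ y' in 𝓝 (g • y), F y' = (fun z => f z + c g) (e (p y')) := by
    filter_upwards [h1.eventually hf] with y' hy'
    have h3 := hA.equiv g (g⁻¹ • y')
    rw [smul_inv_smul] at h3
    rw [h3, hy', p_smul' hp]
  have h3 := hr e (fun z => f z + c g) (by rwa [p_smul' hp]) h2
  rw [p_smul' hp] at h3
  rwa [fderiv_add_const] at h3

theorem per_reg_iff (hp : IsGalois Γ p) (hA : Per p w F c) {g : Γ} {y : E} :
    Reg (n := n) p F (g • y) ↔ Reg (n := n) p F y := by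
  refine ⟨per_reg_smul hp hA, fun h => per_reg_smul (g := g⁻¹) hp hA ?_⟩
  simpa using h

theorem per_countable (hA : Per p w F c) : (range c).Countable := by
  have h1 : range c = ⋃ r : ℕ, {v | (∃ g : Γ, c g = v) ∧ ‖v‖ ≤ r} := by
    ext v
    simp only [mem_iUnion]
    constructor
    · rintro ⟨g, rfl⟩
      obtain ⟨r, hr⟩ := exists_nat_ge ‖c g‖
      exact ⟨r, ⟨g, rfl⟩, hr⟩
    · rintro ⟨r, ⟨g, rfl⟩, -⟩
      exact ⟨g, rfl⟩
  rw [h1]
  exact countable_iUnion fun r => (hA.disc r).countable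

theorem rv_compl : (RV n p F)ᶜ = F '' {y | ¬ Reg (n := n) p F y} := by
  ext t
  simp only [RV, mem_compl_iff, mem_ofPred_eq, mem_image]
  push Not
  exact ⟨fun ⟨y, h1, h2⟩ => ⟨y, h2, h1⟩, fun ⟨y, h1, h2⟩ => ⟨y, h2, h1⟩⟩

theorem nr_compl : (NR n p F)ᶜ = F '' {y | Reg (n := n) p F y} := by
  ext t
  simp only [NR, mem_compl_iff, mem_ofPred_eq, mem_image]
  push Not
  exact ⟨fun ⟨y, h1, h2⟩ => ⟨y, h2, h1⟩, fun ⟨y, h1, h2⟩ => ⟨y, h2, h1⟩⟩

variable [IsManifold 𝓘(ℂ, Cm n) ω X]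

theorem rv_open [CompactSpace X] [Nonempty E] (hp : IsGalois Γ p) (hA : Per p w F c) :
    IsOpen (RV n p F) := by
  rw [← isClosed_compl_iff, rv_compl]
  obtain ⟨B, hB⟩ := hA.hol
  have hFc := per_cont hp.cov hA
  refine closed_of_balls fun r => ?_
  obtain ⟨C, hC, hcov⟩ := per_compact hp hA r
  have h1 : IsClosed {y | ¬ Reg (n := n) p F y} := (reg_open hp.cov hB).isClosed_compl
  have h2 : IsCompact (F '' (C ∩ {y | ¬ Reg (n := n) p F y})) := (hC.inter_right h1).image hFc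
  have h3 : F '' {y | ¬ Reg (n := n) p F y} ∩ closedBall 0 r =
      F '' (C ∩ {y | ¬ Reg (n := n) p F y}) ∩ closedBall 0 r := by
    ext v
    constructor
    · rintro ⟨⟨y, hy, rfl⟩, hv⟩
      obtain ⟨k, hk, hky⟩ := hcov y (mem_closedBall_zero_iff.1 hv)
      refine ⟨⟨k • y, ⟨hky, ?_⟩, ker_smul hA hk y⟩, hv⟩
      intro h4
      exact hy ((per_reg_iff hp hA).1 h4)
    · rintro ⟨⟨y, ⟨-, hy⟩, rfl⟩, hv⟩
      exact ⟨⟨y, hy, rfl⟩, hv⟩
  rw [h3]
  exact h2.isClosed.inter isClosed_closedBall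

theorem rv_cov [CompactSpace X] (hN : 1 ≤ q) (hp : IsGalois Γ p) (hA : Per p w F c) :
    Cov (q - 1) (RV n p F)ᶜ := by
  rw [rv_compl]
  obtain ⟨B, hB⟩ := hA.hol
  obtain ⟨C, hC, hcov⟩ := exists_compact_X hp n
  choose e ε hε hyε _ _ using fun y : E => exists_ch (n := n) hp.cov y univ_mem
  obtain ⟨t, ht⟩ := hC.elim_nhds_subcover (fun y => (ε y).source)
    fun y _ => (ε y).open_source.mem_nhds (hyε y)
  have h1 : F '' {y | ¬ Reg (n := n) p F y} ⊆
      ⋃ v ∈ range c, ⋃ y ∈ (t : Set E), (fun x => x + -v) ''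
        ((F ∘ (ε y).symm) '' {z ∈ (ε y).target |
          ¬ Function.Surjective (fderiv ℂ (F ∘ (ε y).symm) z)}) := by
    rintro _ ⟨y, hy, rfl⟩
    obtain ⟨g, hgy⟩ := hcov y
    obtain ⟨y₁, hy₁, hy₂⟩ := mem_iUnion₂.1 (ht.2 hgy)
    refine mem_iUnion₂.2 ⟨c g, ⟨g, rfl⟩, mem_iUnion₂.2 ⟨y₁, hy₁, F (g • y),
      ⟨ε y₁ (g • y), ⟨(ε y₁).map_source hy₂, ?_⟩, ?_⟩, ?_⟩⟩
    · intro h2
      have h3 := ((hε y₁).reg_iff hp.cov hB hy₂).2 h2
      exact hy ((per_reg_iff hp hA).1 h3)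
    · show F ((ε y₁).symm (ε y₁ (g • y))) = _
      rw [(ε y₁).left_inv hy₂]
    · show F (g • y) + -c g = F y
      rw [hA.equiv g]; simp
  refine Cov.mono (Cov.biUnion (per_countable hA) fun v _ =>
    Cov.biUnion t.countable_toSet fun y _ => ?_) h1
  exact (crit_cov hN (ε y).open_target ((hε y).diff hB)).closedSubset _

theorem nr_closed (hp : IsCoveringMap p) (hA : Per p w F c) : IsClosed (NR n p F) := by
  obtain ⟨B, hB⟩ := hA.hol
  rw [← isOpen_compl_iff, nr_compl, isOpen_iff_mem_nhds]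
  rintro _ ⟨y, hy, rfl⟩
  exact H35.S4.open_E hp hB hy _ ((reg_open hp hB).mem_nhds hy)

/-- a continuous section through a regular point -/
theorem exists_section {B : ℝ} (hp : IsCoveringMap p) (hB : HolB p w F B) {y : E}
    (hy : Reg (n := n) p F y) : ∃ r > 0, ∃ σ : Cm q → E, ContinuousOn σ (ball (F y) r) ∧
      σ (F y) = y ∧ ∀ s ∈ ball (F y) r, F (σ s) = s := by
  obtain ⟨e, ε, hε, hyε, -, -⟩ := exists_ch (n := n) hp y univ_mem
  have hs := (hε.reg_iff hp hB hyε).1 hy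
  set f := F ∘ ε.symm with hf
  have hfa : ContDiffAt ℂ ω f (ε y) :=
    (Vale.Agent.P268.analyticOnNhd_of_differentiableOn ε.open_target (hε.diff hB) _
      (ε.map_source hyε)).contDiffAt
  have hst : HasStrictFDerivAt f (fderiv ℂ f (ε y)) (ε y) := hfa.hasStrictFDerivAt (by simp)
  obtain ⟨A, hA⟩ := (fderiv ℂ f (ε y) : Cm n →ₗ[ℂ] Cm q).exists_rightInverse_of_surjective
    (LinearMap.range_eq_top.2 hs)
  set A' : Cm q →L[ℂ] Cm n := LinearMap.toContinuousLinearMap A with hA'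
  -- `g v = f (ε y + A (v - F y))`
  have hfy : f (ε y) = F y := by rw [hf, Function.comp_apply, ε.left_inv hyε]
  set a : Cm q → Cm n := fun v => ε y + A' (v - F y) with ha
  have ha0 : a (F y) = ε y := by simp [ha]
  have had : HasStrictFDerivAt a A' (F y) := by
    have h1 : HasStrictFDerivAt (fun v : Cm q => v - F y) (ContinuousLinearMap.id ℂ (Cm q)) (F y) :=
      (hasStrictFDerivAt_id (F y)).sub_const (F y)
    have h2 := (A'.hasStrictFDerivAt.comp (F y) h1).const_add (ε y)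
    exact h2
  have hg : HasStrictFDerivAt (f ∘ a) ((ContinuousLinearEquiv.refl ℂ (Cm q) : Cm q →L[ℂ] Cm q))
      (F y) := by
    have h1 : HasStrictFDerivAt f (fderiv ℂ f (ε y)) (a (F y)) := by rw [ha0]; exact hst
    have h2 := h1.comp (F y) had
    have h3 : (fderiv ℂ f (ε y)).comp A' = (ContinuousLinearEquiv.refl ℂ (Cm q) : Cm q →L[ℂ] Cm q) := by
      ext v i
      have := congrArg (fun L => L v) hA
      exact congrFun this i
    rw [← h3]
    exact h2
  set Q := hg.toOpenPartialHomeomorph (f ∘ a) with hQ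
  have hQs : F y ∈ Q.source := hg.mem_toOpenPartialHomeomorph_source
  have hQy : Q (F y) = F y := by
    show f (a (F y)) = F y
    rw [ha0, hfy]
  have hQt : F y ∈ Q.target := by
    have := Q.map_source hQs
    rwa [hQy] at this
  have hsy : Q.symm (F y) = F y := by
    have := Q.left_inv hQs
    rwa [hQy] at this
  have hac : Continuous a := by
    show Continuous fun v : Cm q => ε y + A' (v - F y)
    fun_prop
  have h1 : Q.target ∩ Q.symm ⁻¹' (a ⁻¹' ε.target) ∈ 𝓝 (F y) := by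
    refine inter_mem (Q.open_target.mem_nhds hQt) ?_
    refine (Q.symm.continuousAt hQt).preimage_mem_nhds ?_
    rw [hsy]
    refine hac.continuousAt.preimage_mem_nhds ?_
    rw [ha0]
    exact ε.open_target.mem_nhds (ε.map_source hyε)
  obtain ⟨r, hr, hb⟩ := Metric.mem_nhds_iff.1 h1
  refine ⟨r, hr, fun s => ε.symm (a (Q.symm s)), ?_, ?_, ?_⟩
  · refine ε.continuousOn_symm.comp (hac.comp_continuousOn
      (Q.continuousOn_symm.mono fun s hs => (hb hs).1)) fun s hs => (hb hs).2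
  · show ε.symm (a (Q.symm (F y))) = y
    rw [hsy, ha0, ε.left_inv hyε]
  · intro s hs
    have h2 : Q (Q.symm s) = s := Q.right_inv (hb hs).1
    exact h2

theorem locConn (hp : IsCoveringMap p) (n : ℕ) [ChartedSpace (Cm n) X] :
    LocallyConnectedSpace E := by
  refine locallyConnectedSpace_of_connected_bases (ι := Set E) (fun _ U => U)
    (fun x U => U ∈ 𝓝 x ∧ IsPreconnected U) (fun x => ?_) fun x U hU => hU.2
  refine ⟨fun O => ⟨fun hO => ?_, fun ⟨U, ⟨h1, _⟩, h2⟩ => mem_of_superset h1 h2⟩⟩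
  obtain ⟨e, ε, hε, hyε, hεO, hc⟩ := exists_ch (n := n) hp x hO
  refine ⟨ε.source, ⟨ε.open_source.mem_nhds hyε, ?_⟩, hεO⟩
  rw [← ε.symm_image_target_eq_source]
  exact hc.isPreconnected.image _ ε.continuousOn_symm

/-- removal of the preimage of a thin set -/
theorem removal [ConnectedSpace E] (hN : 1 ≤ q) (hp : IsCoveringMap p) {B : ℝ} (hB : HolB p w F B)
    (hex : ∃ y, Reg (n := n) p F y) {T : Set (Cm q)} (hT : Cov (q - 1) T) {U : Set E}
    (hU : IsOpen U) : (U.Nonempty → (U \ F ⁻¹' T).Nonempty) ∧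
      (IsPreconnected U → IsPreconnected (U \ F ⁻¹' T)) := by
  have hdense := reg_dense hN hp hB hex
  -- local structure
  have hloc : ∀ (e : Chart n X) (ε : OpenPartialHomeomorph E (Cm n)), IsCh p e ε →
      Convex ℝ ε.target → ε.source.Nonempty →
      Cov (n - 1) ((F ∘ ε.symm) ⁻¹' T ∩ ε.target) ∧ n - 1 + 1 = n := by
    intro e ε hε hc hne
    obtain ⟨y, hy1, hy2⟩ := hdense.inter_open_nonempty _ ε.open_source hne
    have h2 := (hε.reg_iff hp hB hy1).1 hy2
    refine ⟨local_cov hN ε.open_target hc (hε.diff hB) ⟨_, ε.map_source hy1, h2⟩ hT, ?_⟩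
    have := N_le_n h2
    omega
  have hne : ∀ y : E, ∀ O ∈ 𝓝 y, (O \ F ⁻¹' T).Nonempty := by
    intro y O hO
    obtain ⟨e, ε, hε, hyε, hεO, hc⟩ := exists_ch (n := n) hp y hO
    obtain ⟨h1, h2⟩ := hloc e ε hε hc ⟨y, hyε⟩
    obtain ⟨z, hz1, hz2⟩ := nonempty_diff h1 (by simp; omega) ε.open_target
      ⟨_, ε.map_source hyε⟩
    exact ⟨ε.symm z, hεO (ε.map_target hz1), hz2⟩
  refine ⟨fun ⟨y, hy⟩ => hne y U (hU.mem_nhds hy), fun hpre => ?_⟩
  have hPU : PreconnectedSpace U := isPreconnected_iff_preconnectedSpace.1 hpre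
  have key : IsPreconnected ((Subtype.val : U → E) ⁻¹' (F ⁻¹' T))ᶜ := by
    refine preconn_compl ?_ ?_
    · intro y
      rw [mem_closure_iff_nhds]
      intro O hO
      have h1 : Subtype.val '' O ∈ 𝓝 (y : E) := hU.isOpenMap_subtype_val.image_mem_nhds hO
      obtain ⟨z, ⟨z', hz', rfl⟩, hz2⟩ := hne y _ h1
      exact ⟨z', hz', hz2⟩
    · intro y
      obtain ⟨e, ε, hε, hyε, hεU, hc⟩ := exists_ch (n := n) hp (y : E) (hU.mem_nhds y.2)
      obtain ⟨h1, h2⟩ := hloc e ε hε hc ⟨y, hyε⟩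
      refine ⟨Subtype.val ⁻¹' ε.source, ε.open_source.preimage continuous_subtype_val, hyε, ?_⟩
      have h3 := preconn_diff h1 (by simp; omega) ε.open_target hc
      have h4 : ε.source \ F ⁻¹' T = ε.symm '' (ε.target \ (F ∘ ε.symm) ⁻¹' T) := by
        ext y'
        constructor
        · rintro ⟨h5, h6⟩
          refine ⟨ε y', ⟨ε.map_source h5, ?_⟩, ε.left_inv h5⟩
          show ¬ F (ε.symm (ε y')) ∈ T
          rw [ε.left_inv h5]
          exact h6
        · rintro ⟨z, ⟨h5, h6⟩, rfl⟩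
          exact ⟨ε.map_target h5, h6⟩
      have h5 : IsPreconnected (ε.source \ F ⁻¹' T) := by
        rw [h4]
        exact h3.image _ (ε.continuousOn_symm.mono sdiff_subset)
      rw [← Topology.IsInducing.subtypeVal.isPreconnected_image]
      refine (congrArg IsPreconnected ?_).mpr h5
      ext y'
      constructor
      · rintro ⟨z, ⟨h6, h7⟩, rfl⟩
        exact ⟨h6, h7⟩
      · rintro ⟨h6, h7⟩
        exact ⟨⟨y', hεU h6⟩, ⟨h6, h7⟩, rfl⟩
  have h6 := key.image _ continuous_subtype_val.continuousOn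
  refine (congrArg IsPreconnected ?_).mpr h6
  ext y'
  constructor
  · rintro ⟨h7, h8⟩
    exact ⟨⟨y', h7⟩, h8, rfl⟩
  · rintro ⟨z, h7, rfl⟩
    exact ⟨z.2, h7⟩

end

end Vale.Agent.P284.H224
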