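import Vale.Agent.P284.H494.DT
import Vale.Agent.P284.H573.HForm
import Vale.Agent.P284.H494.TailS
import Vale.Agent.P284.H279.TPS

/-!
# P284 (helper224), MULT: multiple fibres over a periodic divisor, statement

`F : E → ℂ^q` with periods in `Λ`; a nonempty `Λ`-periodic divisor `D` over which `F` has no regular
point and which is not invariant under any complex direction. Then `X` carries an invariant form
`(dF₁ ∧ … ∧ dF_q)^m γ(F)` with values in a finite dimensional space, with a good point. No domination.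
-/

open scoped Manifold ContDiff Topology
open Filter Set Metric

noncomputable section

namespace Vale.Agent.P284.H224

open Vale.Agent.P272.K Vale.Agent.P284.H573 Vale.Agent.P284.H894.G Vale.Agent.P284.H894.W
  Vale.Agent.P284.H494 Vale.Agent.P284.H279

/-- **MULT** -/
def MultStmt : Prop :=
  ∀ (n q : ℕ) (X : Type) [TopologicalSpace X] [T2Space X] [CompactSpace X] [ConnectedSpace X]
    [ChartedSpace (Cm n) X] [IsManifold 𝓘(ℂ, Cm n) ω X]
    (w : Chart n X → Cm n → Matrix (Fin n) (Fin n) ℂ)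
    (E Γ : Type) [TopologicalSpace E] [ConnectedSpace E] [Group Γ] [MulAction Γ E]
    (p : E → X), IsGalois Γ p →
    ∀ (F : E → Cm q) (c : Γ → Cm q), Per p w F c → (∃ y, Reg (n := n) p F y) →
    ∀ Λ : AddSubgroup (Cm q), (∀ g, c g ∈ Λ) → Coco Λ →
    ∀ Ed : (Cm q → ℂ) → Cm q → Prop, PerDiv Λ Ed → (zs Ed).Nonempty →
    (∀ y, F y ∈ zs Ed → ¬ Reg (n := n) p F y) →
    (∀ v : Cm q, (∀ s : ℂ, ∀ x ∈ zs Ed, x + s • v ∈ zs Ed) → v = 0) →
    ∃ (m k : ℕ) (γ : Cm q → EuclideanSpace ℂ (Fin (k + 1)))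
      (v : E → Chart n X → (Fin q → Cm n) → EuclideanSpace ℂ (Fin (k + 1))), 1 ≤ q ∧ 1 ≤ m ∧
      HForm n q m p (EuclideanSpace ℂ (Fin (k + 1))) v ∧
      (∀ (g : Γ) (y : E) (e : Chart n X), At e (p y) → ∀ ξ, v (g • y) e ξ = v y e ξ) ∧
      (∀ (y : E) (e : Chart n X), At e (p y) → Reg (n := n) p F y → ∀ ξ,
        v y e ξ = dt p F y e ξ ^ m • γ (F y)) ∧
      (∀ t ∉ zs Ed, AnalyticAt ℂ γ t ∧ γ t 0 = 1) ∧
      (∀ l ∈ Λ, ∀ t, γ (t + l) = γ t) ∧
      ∃ y, Reg (n := n) p F y ∧ GoodAt (n := n) p q m v y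

end Vale.Agent.P284.H224
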