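import Vale.Agent.P284.H224.RatB

/-!
# P284 (helper224), RAT: the null directions of a sheet function are rational
-/

open scoped Manifold ContDiff Topology ENNReal
open Filter Set Metric MeasureTheory

noncomputable section

namespace Vale.Agent.P284.H224

open Vale.Agent.P272.K Vale.Agent.P284.H894.W Vale.Agent.P284.H894.G Vale.Agent.P284.H10
  Vale.Agent.P284.H494 Vale.Agent.P284.H279 Vale.Agent.P284.H213.MF Vale.Agent.P284.H213.Grp

/-- **RAT**: the periods of the reduced map `π ∘ F` form a lattice. -/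
def RatStmt : Prop :=
  ∀ (n q r : ℕ) (X : Type) [TopologicalSpace X] [T2Space X] [CompactSpace X] [ConnectedSpace X]
    [ChartedSpace (Cm n) X] [IsManifold 𝓘(ℂ, Cm n) ω X]
    (w : Chart n X → Cm n → Matrix (Fin n) (Fin n) ℂ)
    (E Γ : Type) [TopologicalSpace E] [ConnectedSpace E] [Group Γ] [MulAction Γ E]
    (p : E → X), IsGalois Γ p →
    ∀ (F : E → Cm q) (c : Γ → Cm q), Per p w F c → LatChar Γ q c →
      (∃ y, Reg (n := n) p F y) →
    ∀ (W : Type) [NormedAddCommGroup W] [InnerProductSpace ℂ W] [CompleteSpace W] (h : E → W),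
      SheetFun n Γ p F h →
    ∀ π : Cm q →L[ℂ] Cm r, Function.Surjective π →
      (∀ y, Reg (n := n) p F y → ∃ f : Cm r → W, AnalyticAt ℂ f (π (F y)) ∧
        (∀ᶠ y' in 𝓝 y, h y' = f (π (F y'))) ∧
        ∀ v : Cm r, (∀ᶠ a in 𝓝 (π (F y)), fderiv ℂ f a v = 0) → v = 0) →
      LatChar Γ r (fun g => π (c g))

/-- the group of periods -/
def lat {Γ : Type} [Group Γ] {q : ℕ} (c : Γ → Cm q) (h : LatChar Γ q c) : AddSubgroup (Cm q) where
  carrier := Set.range c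
  add_mem' := by
    rintro _ _ ⟨g, rfl⟩ ⟨k, rfl⟩
    exact ⟨g * k, h.add g k⟩
  zero_mem' := ⟨1, h.map_one⟩
  neg_mem' := by
    rintro _ ⟨g, rfl⟩
    exact ⟨g⁻¹, h.map_inv g⟩

theorem lat_coco {Γ : Type} [Group Γ] {q : ℕ} {c : Γ → Cm q} (hc : LatChar Γ q c) :
    Coco (lat c hc) := by
  obtain ⟨C, -, hC⟩ := hc.near ⊤ ⊤ (fun v _ => by
    have h1 : ({v | ∃ g ∈ (⊤ : Subgroup Γ), c g = v} ∩ ((⊤ : Submodule ℝ (Cm q)) : Set (Cm q))) =
        Set.range c := by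
      ext v
      simp
    rw [h1, hc.span]
    trivial)
  refine ⟨C, fun z => ?_⟩
  obtain ⟨d, -, -, hd⟩ := hC z trivial
  exact ⟨c d, ⟨d, rfl⟩, hd⟩

theorem map_nhds_pi {q r : ℕ} {π : Cm q →L[ℂ] Cm r} (hπ : Function.Surjective π) (t : Cm q) :
    map π (𝓝 t) = 𝓝 (π t) :=
  (π.isOpenMap hπ).map_nhds_eq π.continuous.continuousAt

theorem rat_of (hL : LineStmt) : RatStmt := by
  intro n q r X _ _ _ _ _ _ w E Γ _ _ _ _ p hp F c hP hc hex W _ _ _ h hS π hπ hloc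
  rcases Nat.eq_zero_or_pos q with rfl | hq
  · have hsub : Subsingleton (Cm r) := by
      refine ⟨fun a b => ?_⟩
      obtain ⟨a', rfl⟩ := hπ a
      obtain ⟨b', rfl⟩ := hπ b
      rw [Subsingleton.elim a' b']
    exact ⟨fun g k => Subsingleton.elim _ _, fun R => Set.Subsingleton.finite
      fun a _ b _ => Subsingleton.elim _ _, Subsingleton.elim _ _⟩
  obtain ⟨B, hB⟩ := hP.hol
  have hloc' : ∀ y, Reg (n := n) p F y → ∃ f : Cm r → W, AnalyticAt ℂ f (π (F y)) ∧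
      ∀ᶠ y' in 𝓝 y, h y' = f (π (F y')) := by
    intro y hy
    obtain ⟨f, h1, h2, -⟩ := hloc y hy
    exact ⟨f, h1, h2⟩
  obtain ⟨hGD, hSS⟩ := gd hq hp hP hex hloc' hS.equiv hπ
  obtain ⟨hRo, hRd, -, hRc, -, -, -⟩ := rvStmt n q X w E Γ p hp F c hP hex
  -- invariance of the regular values
  have hRg : ∀ (g : Γ) (t : Cm q), t ∈ RV n p F → t + c g ∈ RV n p F := by
    intro g t ht y hy
    have h1 := hP.equiv g⁻¹ y
    rw [hc.map_inv, hy, add_neg_cancel_right] at h1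
    exact (hP.reg_smul_iff hp g⁻¹ y).1 (ht _ h1)
  set Λ := lat c hc with hΛ
  set V₀ : Submodule ℂ (Cm q) := LinearMap.ker (π : Cm q →ₗ[ℂ] Cm r) with hV₀
  have hV : ∀ v, v ∈ V₀ ↔ π v = 0 := fun v => LinearMap.mem_ker
  set D := DD n p F π with hD
  have hDcl : IsClosed D := by
    have h1 : Dᶜ = π ⁻¹' (π '' RV n p F) := by
      ext t
      rw [mem_compl_iff, hD, not_DD]
      rfl
    rw [← isOpen_compl_iff, h1]
    exact ((π.isOpenMap hπ) _ hRo).preimage π.continuous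
  have hDΛ : ∀ l ∈ Λ, ∀ t ∈ D, t + l ∈ D := by
    rintro _ ⟨g, rfl⟩ t ht t₁ ht₁ h1
    refine ht (t₁ + c g⁻¹) (hRg _ _ ht₁) ?_
    rw [hc.map_inv, map_add, h1, map_add, map_neg, add_neg_cancel_right]
  have hDV : ∀ v ∈ V₀, ∀ t ∈ D, t + v ∈ D := by
    intro v hv t ht t₁ ht₁ h1
    refine ht t₁ ht₁ ?_
    rw [h1, map_add, (hV v).1 hv, add_zero]
  have hΛs : Λ ≤ stab D := by
    intro l hl x
    refine ⟨fun h1 => ?_, hDΛ l hl x⟩
    have := hDΛ (-l) (Λ.neg_mem hl) _ h1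
    rwa [add_neg_cancel_right] at this
  have hVs : V₀.toAddSubgroup ≤ stab D := by
    intro l hl x
    refine ⟨fun h1 => ?_, hDV l hl x⟩
    have := hDV (-l) (V₀.neg_mem hl) _ h1
    rwa [add_neg_cancel_right] at this
  set A : AddSubgroup (Cm q) := (Λ ⊔ V₀.toAddSubgroup).topologicalClosure with hA
  have hAcl : IsClosed (A : Set (Cm q)) := AddSubgroup.isClosed_topologicalClosure _
  have hAs : A ≤ stab D := AddSubgroup.topologicalClosure_minimal _ (sup_le hΛs hVs)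
    (isClosed_stab hDcl)
  have hΛA : Λ ≤ A := le_sup_left.trans (AddSubgroup.le_topologicalClosure _)
  have hVA : V₀.toAddSubgroup ≤ A := le_sup_right.trans (AddSubgroup.le_topologicalClosure _)
  have hper : ∀ l ∈ Λ, ∀ t ∉ D, SS n p F h π (t + l) = SS n p F h π t := by
    rintro _ ⟨g, rfl⟩ t -
    have h1 : ∀ (g : Γ) (t : Cm q), AA n p F h π t ⊆ AA n p F h π (t + c g) := by
      rintro g t _ ⟨y, hy1, hy2, rfl⟩
      refine ⟨g • y, by rw [hP.equiv]; exact hRg g _ hy1, by rw [hP.equiv, map_add, map_add, hy2],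
        ?_⟩
      obtain ⟨U, hU⟩ := hS.equiv g
      rw [hU y (hy1 y rfl), U.norm_map]
    have h2 : AA n p F h π (t + c g) = AA n p F h π t := by
      refine subset_antisymm ?_ (h1 g t)
      have := h1 g⁻¹ (t + c g)
      rwa [hc.map_inv, add_neg_cancel_right] at this
    show sSup _ = sSup _
    rw [h2]
  have hint : ∀ R : ℝ, ∫⁻ t in ball (0 : Cm q) R, ENNReal.ofReal (SS n p F h π t) < ⊤ := by
    obtain ⟨s, hs1, hs2⟩ := hS.int
    intro R
    refine lt_of_le_of_lt ?_ (hs1 R)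
    apply lintegral_mono_ae
    have h2 : ∀ᵐ τ ∂(volume : Measure (Cm q)), τ ∈ RV n p F := by
      rw [ae_iff]
      exact vol_cov hq (hRc hq)
    filter_upwards [ae_restrict_of_ae h2] with t ht
    obtain ⟨y, -, -, hy3, hy4⟩ := hSS t (fun h1 => h1 t ht rfl)
    obtain ⟨y', hy', hyn⟩ := hy4 t ht rfl
    rw [hy3, ← hyn, ← hy']
    exact hs2 y' (by rw [hy']; exact ht)
  -- the key claim
  have hkey : ∀ ζ ∈ lin A, ζ ∈ V₀ := by
    intro ζ hζ
    obtain ⟨t, ht, f, ⟨f', y, hy1, hy2, hf'a, hf', hhf⟩, hfz⟩ := hL q hq W Λ D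
      (GG n p F h π) (SS n p F h π) ζ (fun R => hc.disc R) (lat_coco hc) hDcl
      ((hRc hq).mono fun t ht htR => ht t htR rfl) hDΛ
      (fun a t ht => (hAs (hζ a) t).2 ht) hGD hper hint
    · rw [hV]
      have h1 : ∀ᶠ t' in 𝓝 t, fderiv ℂ f' (π t') (π ζ) = 0 := by
        have h2 : ∀ᶠ t' in 𝓝 t, AnalyticAt ℂ f' (π t') :=
          π.continuous.continuousAt.eventually hf'a.eventually_analyticAt
        filter_upwards [hf'.eventually_nhds, hfz, h2] with t' h3 h4 h5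
        have h6 : fderiv ℂ f t' = (fderiv ℂ f' (π t')).comp π := by
          rw [(show f =ᶠ[𝓝 t'] fun x => f' (π x) from h3).fderiv_eq]
          exact (h5.differentiableAt.hasFDerivAt.comp t' π.hasFDerivAt).fderiv
        rw [h6] at h4
        exact h4
      have h2 : ∀ᶠ b in 𝓝 (π t), fderiv ℂ f' b (π ζ) = 0 := by
        rw [← map_nhds_pi hπ]
        exact h1
      obtain ⟨f'', h3, h4, h5⟩ := hloc y (hy1 y rfl)
      apply h5
      have h6 : f'' =ᶠ[𝓝 (π (F y))] f' := germ_pi hp.cov hB hπ (hy1 y rfl) h4 hhf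
      rw [← hy2] at h2
      filter_upwards [h2, h6.eventuallyEq_nhds] with b h7 h8
      rw [h8.fderiv_eq, h7]
  -- conclusion
  refine hc.quot ⊤ V₀ (fun v hv => ?_) (π : Cm q →ₗ[ℂ] Cm r) hπ rfl
  have h1 := span_lin hAcl hΛA (lat_coco hc)
  have h2 : v ∈ lin A := fun a => hVA (show a • v ∈ V₀.toAddSubgroup from by
    have h3 : ((a : ℂ)) • v ∈ V₀ := V₀.smul_mem _ hv
    rwa [Complex.coe_smul] at h3)
  rw [← h1] at h2
  refine Submodule.span_mono ?_ h2
  rintro x ⟨⟨g, rfl⟩, hx⟩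
  exact ⟨⟨g, trivial, rfl⟩, hkey _ hx⟩

end Vale.Agent.P284.H224
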