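import Vale.Agent.P284.H224.RatS
import Vale.Agent.P284.H224.Top
import Vale.Agent.P284.H213.MF.Stab
import Vale.Agent.P284.H213.Grp.Lat

/-!
# P284 (helper224), RAT: the germs of a sheet function
-/

open scoped Manifold ContDiff Topology ENNReal
open Filter Set Metric MeasureTheory

noncomputable section

namespace Vale.Agent.P284.H224

open Vale.Agent.P272.K Vale.Agent.P284.H894.W Vale.Agent.P284.H894.G Vale.Agent.P284.H10
  Vale.Agent.P284.H494 Vale.Agent.P284.H279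

section
variable {n : ℕ} {X : Type} [TopologicalSpace X] [ChartedSpace (Cm n) X] {E : Type}
  [TopologicalSpace E] {p : E → X} {Γ : Type} [Group Γ] [MulAction Γ E]
  {w : Chart n X → Cm n → Matrix (Fin n) (Fin n) ℂ} {q r : ℕ} {F : E → Cm q} {c : Γ → Cm q}
  [IsManifold 𝓘(ℂ, Cm n) ω X]
  {W : Type} [NormedAddCommGroup W] [InnerProductSpace ℂ W] [CompleteSpace W] {h : E → W}

/-- Analytic continuation over the regular values: if `h = k ∘ F` near a point, `k` analytic on the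
connected open set `O` of regular values, then over every point of `O` there is a point with `h = k ∘ F`. -/
theorem sweep' [CompactSpace X] [Nonempty E] (hp : IsGalois Γ p) (hP : Per p w F c)
    (hloc : ∀ y, Reg (n := n) p F y → ∃ f : Cm q → W, AnalyticAt ℂ f (F y) ∧
      ∀ᶠ y' in 𝓝 y, h y' = f (F y'))
    (heq : ∀ g : Γ, ∃ U : W →ₗᵢ[ℂ] W, ∀ y, Reg (n := n) p F y → h (g • y) = U (h y))
    {k : Cm q → W} {O : Set (Cm q)} (hO : IsOpen O) (hpre : IsPreconnected O)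
    (hk : AnalyticOnNhd ℂ k O) (hOR : O ⊆ RV n p F) {y₁ : E} (hy₁ : F y₁ ∈ O)
    (h₁ : ∀ᶠ y in 𝓝 y₁, h y = k (F y)) : ∀ τ ∈ O, ∃ z, F z = τ ∧ Reg (n := n) p F z ∧
      ∀ᶠ y in 𝓝 z, h y = k (F y) := by
  obtain ⟨B, hB⟩ := hP.hol
  have hFc := hP.continuous hp.cov
  set u : Set (Cm q) := {τ | ∃ z, F z = τ ∧ Reg (n := n) p F z ∧ ∀ᶠ y in 𝓝 z, h y = k (F y)} with hu
  have huo : IsOpen u := by
    rw [isOpen_iff_mem_nhds]
    rintro τ ⟨z, rfl, hz, hPz⟩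
    rw [← reg_map_nhds hp.cov hB hz]
    show {z' | F z' ∈ u} ∈ 𝓝 z
    filter_upwards [(reg_open hp.cov hB).mem_nhds hz, hPz.eventually_nhds] with z' h1 h2
      using ⟨z', rfl, h1, h2⟩
  have hcl : closure u ∩ O ⊆ u := by
    rintro τ₀ ⟨hτ₀u, hτ₀⟩
    obtain ⟨C, hC, hcov⟩ := hP.exists_compact hp (‖τ₀‖ + 1)
    have hne : (𝓝[u] τ₀).NeBot := mem_closure_iff_nhdsWithin_neBot.1 hτ₀u
    -- choose the points
    have hch : ∀ τ : Cm q, ∃ (z : E) (g : Γ), τ ∈ u → ‖τ‖ ≤ ‖τ₀‖ + 1 →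
        F z = τ ∧ Reg (n := n) p F z ∧ (∀ᶠ y in 𝓝 z, h y = k (F y)) ∧ c g = 0 ∧ g • z ∈ C := by
      intro τ
      by_cases h1 : τ ∈ u ∧ ‖τ‖ ≤ ‖τ₀‖ + 1
      · obtain ⟨⟨z, hz1, hz2, hz3⟩, h2⟩ := h1
        obtain ⟨g, hg1, hg2⟩ := hcov z (by rw [hz1]; exact h2)
        exact ⟨z, g, fun _ _ => ⟨hz1, hz2, hz3, hg1, hg2⟩⟩
      · exact ⟨Classical.arbitrary E, 1, fun h2 h3 => absurd ⟨h2, h3⟩ h1⟩
    choose z g hzg using hch
    have hnorm : ∀ᶠ τ in 𝓝[u] τ₀, ‖τ‖ ≤ ‖τ₀‖ + 1 := by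
      apply eventually_nhdsWithin_of_eventually_nhds
      have h1 : ∀ᶠ τ in 𝓝 τ₀, ‖τ‖ < ‖τ₀‖ + 1 :=
        continuous_norm.continuousAt.eventually (gt_mem_nhds (by linarith))
      exact h1.mono fun τ h => h.le
    have hgood : ∀ᶠ τ in 𝓝[u] τ₀, τ ∈ u ∧ ‖τ‖ ≤ ‖τ₀‖ + 1 := by
      filter_upwards [self_mem_nhdsWithin, hnorm] with τ h1 h2 using ⟨h1, h2⟩
    obtain ⟨x, hxC, hx⟩ := hC.exists_mapClusterPt (u := fun τ => g τ • z τ) (f := 𝓝[u] τ₀) (by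
      rw [le_principal_iff]
      show ∀ᶠ τ in 𝓝[u] τ₀, g τ • z τ ∈ C
      filter_upwards [hgood] with τ h1 using (hzg τ h1.1 h1.2).2.2.2.2)
    have hFG : ∀ τ, τ ∈ u → ‖τ‖ ≤ ‖τ₀‖ + 1 → F (g τ • z τ) = τ := by
      intro τ h1 h2
      obtain ⟨h3, -, -, h4, -⟩ := hzg τ h1 h2
      rw [hP.equiv, h4, add_zero, h3]
    have hFx : F x = τ₀ := by
      by_contra hne'
      obtain ⟨A, A', hA, hA', hxA, hτA, hdis⟩ := t2_separation hne'
      have h1 : ∃ᶠ τ in 𝓝[u] τ₀, g τ • z τ ∈ F ⁻¹' A :=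
        hx.frequently (hFc.continuousAt.eventually (hA.mem_nhds hxA))
      have h2 : ∀ᶠ τ in 𝓝[u] τ₀, τ ∈ A' :=
        eventually_nhdsWithin_of_eventually_nhds (hA'.mem_nhds hτA)
      obtain ⟨τ, h3, h4, h5⟩ := (h1.and_eventually (h2.and hgood)).exists
      have h6 : F (g τ • z τ) ∈ A := h3
      rw [hFG τ h5.1 h5.2] at h6
      exact Set.disjoint_left.1 hdis h6 h4
    have hxr : Reg (n := n) p F x := hOR hτ₀ x hFx
    obtain ⟨f, hfa, hf⟩ := hloc x hxr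
    rw [hFx] at hfa
    obtain ⟨ρ, hρ, hρb⟩ := Metric.eventually_nhds_iff_ball.1
      (hfa.eventually_analyticAt.and (hO.mem_nhds hτ₀ : ∀ᶠ τ in 𝓝 τ₀, τ ∈ O))
    have hN : ∀ᶠ y in 𝓝 x, (∀ᶠ y' in 𝓝 y, h y' = f (F y')) ∧ F y ∈ ball τ₀ ρ := by
      refine hf.eventually_nhds.and ?_
      have : ball τ₀ ρ ∈ 𝓝 (F x) := by rw [hFx]; exact ball_mem_nhds _ hρ
      exact hFc.continuousAt.eventually this
    obtain ⟨τ, ⟨h3, h4⟩, h5, h6⟩ := ((hx.frequently hN).and_eventually hgood).exists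
    obtain ⟨hz1, hz2, hz3, hg1, -⟩ := hzg τ h5 h6
    rw [hFG τ h5 h6] at h4
    obtain ⟨U, hU⟩ := heq (g τ)
    have hinv : ∀ y, F ((g τ)⁻¹ • y) = F y := by
      intro y
      have h7 := hP.equiv (g τ) ((g τ)⁻¹ • y)
      rw [smul_inv_smul, hg1, add_zero] at h7
      exact h7.symm
    have hcg : Tendsto (fun y : E => (g τ)⁻¹ • y) (𝓝 (g τ • z τ)) (𝓝 (z τ)) := by
      have := (hp.cont (g τ)⁻¹).tendsto (g τ • z τ)
      simpa using this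
    have h7 : ∀ᶠ y in 𝓝 (g τ • z τ), f (F y) = U (k (F y)) := by
      filter_upwards [h3, hcg.eventually hz3,
        hcg.eventually ((reg_open hp.cov hB).mem_nhds hz2)] with y h8 h9 h10
      have h11 := hU _ h10
      rw [smul_inv_smul, h9, hinv] at h11
      rw [← h8, h11]
    have hzr : Reg (n := n) p F (g τ • z τ) := (hP.reg_smul_iff hp _ _).2 hz2
    have h8 : ∀ᶠ τ' in 𝓝 τ, f τ' = U (k τ') := by
      have h9 := reg_map_nhds hp.cov hB hzr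
      rw [hFG τ h5 h6] at h9
      rw [← h9]
      exact h7
    have hUk : AnalyticOnNhd ℂ (fun τ' => U (k τ')) (ball τ₀ ρ) := fun τ' hτ' =>
      (U.toContinuousLinearMap.analyticAt _).comp (hk τ' (hρb τ' hτ').2)
    have hfb : AnalyticOnNhd ℂ f (ball τ₀ ρ) := fun τ' hτ' => (hρb τ' hτ').1
    have h9 : EqOn f (fun τ' => U (k τ')) (ball τ₀ ρ) :=
      hfb.eqOn_of_preconnected_of_eventuallyEq hUk (convex_ball τ₀ ρ).isPreconnected h4 h8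
    have h10 : ∀ᶠ y in 𝓝 x, h y = U (k (F y)) := by
      filter_upwards [hN] with y hy
      rw [hy.1.self_of_nhds]
      exact h9 hy.2
    have hcg' : Tendsto (fun y : E => g τ • y) (𝓝 ((g τ)⁻¹ • x)) (𝓝 x) := by
      have := (hp.cont (g τ)).tendsto ((g τ)⁻¹ • x)
      simpa using this
    have hxr' : Reg (n := n) p F ((g τ)⁻¹ • x) := (hP.reg_smul_iff hp _ _).2 hxr
    refine ⟨(g τ)⁻¹ • x, by rw [hinv, hFx], hxr', ?_⟩
    filter_upwards [hcg'.eventually h10, (reg_open hp.cov hB).mem_nhds hxr'] with y h11 h12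
    rw [hU y h12, hP.equiv, hg1, add_zero] at h11
    exact U.injective h11
  have hyr : Reg (n := n) p F y₁ := hOR hy₁ y₁ rfl
  have hsub := hpre.subset_of_closure_inter_subset huo ⟨F y₁, hy₁, y₁, rfl, hyr, h₁⟩ hcl
  exact fun τ hτ => hsub hτ

variable {π : Cm q →L[ℂ] Cm r}

/-- moving a germ of `h` over the regular values -/
theorem move [T2Space X] [CompactSpace X] [ConnectedSpace E] (hq : 1 ≤ q) (hp : IsGalois Γ p)
    (hP : Per p w F c) (hex : ∃ y, Reg (n := n) p F y)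
    (hloc : ∀ y, Reg (n := n) p F y → ∃ f : Cm r → W, AnalyticAt ℂ f (π (F y)) ∧
      ∀ᶠ y' in 𝓝 y, h y' = f (π (F y')))
    (heq : ∀ g : Γ, ∃ U : W →ₗᵢ[ℂ] W, ∀ y, Reg (n := n) p F y → h (g • y) = U (h y))
    {f : Cm r → W} {b₀ : Cm r} {ρ : ℝ} (hf : ∀ b ∈ ball b₀ ρ, AnalyticAt ℂ f b) {y : E}
    (hy : F y ∈ RV n p F) (hyb : π (F y) ∈ ball b₀ ρ) (hh : ∀ᶠ y' in 𝓝 y, h y' = f (π (F y')))
    {τ : Cm q} (hτ : τ ∈ RV n p F) (hτb : π τ ∈ ball b₀ ρ) :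
    ∃ z, F z = τ ∧ Reg (n := n) p F z ∧ ∀ᶠ y in 𝓝 z, h y = f (π (F y)) := by
  have hlc : LocallyConnectedSpace E := locConn hp.cov n
  have hD := td hq hp hP hex
  have hloc' : ∀ y, Reg (n := n) p F y → ∃ f : Cm q → W, AnalyticAt ℂ f (F y) ∧
      ∀ᶠ y' in 𝓝 y, h y' = f (F y') := by
    intro y hy
    obtain ⟨f, h1, h2⟩ := hloc y hy
    exact ⟨fun a => f (π a), h1.fun_comp_of_eq (π.analyticAt _) rfl, h2⟩
  have hO : IsOpen (π ⁻¹' ball b₀ ρ) := isOpen_ball.preimage π.continuous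
  have hOc : Convex ℝ (π ⁻¹' ball b₀ ρ) :=
    (convex_ball b₀ ρ).linear_preimage ((π : Cm q →ₗ[ℂ] Cm r).restrictScalars ℝ)
  exact sweep' hp hP hloc' heq (k := fun a => f (π a)) (O := π ⁻¹' ball b₀ ρ ∩ RV n p F)
    (hO.inter hD.ropen) (hD.dnc _ hO hOc)
    (fun a ha => (hf _ ha.1).fun_comp_of_eq (π.analyticAt _) rfl) inter_subset_right
    ⟨hyb, hy⟩ hh τ ⟨hτb, hτ⟩

/-- uniform local structure over a regular value -/
theorem unif [T2Space X] [CompactSpace X] [ConnectedSpace E] (hq : 1 ≤ q) (hp : IsGalois Γ p)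
    (hP : Per p w F c) (hex : ∃ y, Reg (n := n) p F y)
    (hloc : ∀ y, Reg (n := n) p F y → ∃ f : Cm r → W, AnalyticAt ℂ f (π (F y)) ∧
      ∀ᶠ y' in 𝓝 y, h y' = f (π (F y')))
    (heq : ∀ g : Γ, ∃ U : W →ₗᵢ[ℂ] W, ∀ y, Reg (n := n) p F y → h (g • y) = U (h y))
    {t₁ : Cm q} (ht₁ : t₁ ∈ RV n p F) :
    ∃ ρ > 0, ball t₁ ρ ⊆ RV n p F ∧ ∃ (m : ℕ) (f : Fin m → Cm r → W),
      (∀ j, ∀ b ∈ ball (π t₁) ρ, AnalyticAt ℂ (f j) b) ∧
      (∀ j, ∃ x, F x = t₁ ∧ ∀ᶠ y' in 𝓝 x, h y' = f j (π (F y'))) ∧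
      ∀ y, F y ∈ ball t₁ ρ → ∃ (j : Fin m) (U : W →ₗᵢ[ℂ] W),
        ∀ᶠ y' in 𝓝 y, h y' = U (f j (π (F y'))) := by
  have hlc : LocallyConnectedSpace E := locConn hp.cov n
  have hT2 : T2Space E := H35.S4.t2_of_cov hp.cov
  have hD := td hq hp hP hex
  obtain ⟨B, hB⟩ := hP.hol
  have hFc := hP.continuous hp.cov
  obtain ⟨C, hC, hcov⟩ := hP.exists_compact hp (‖t₁‖ + 1)
  set K : Set E := C ∩ F ⁻¹' {t₁} with hK
  have hKc : IsCompact K := hC.inter_right (isClosed_singleton.preimage hFc)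
  have hch : ∀ x : E, ∃ (f : Cm r → W) (ρ : ℝ), x ∈ K → 0 < ρ ∧
      (∀ b ∈ ball (π t₁) ρ, AnalyticAt ℂ f b) ∧ ∀ᶠ y' in 𝓝 x, h y' = f (π (F y')) := by
    intro x
    by_cases hx : x ∈ K
    · have hxt : F x = t₁ := hx.2
      obtain ⟨f, h1, h2⟩ := hloc x (ht₁ x hxt)
      rw [hxt] at h1
      obtain ⟨ρ, hρ, hb⟩ := Metric.eventually_nhds_iff_ball.1 h1.eventually_analyticAt
      exact ⟨f, ρ, fun _ => ⟨hρ, hb, h2⟩⟩
    · exact ⟨fun _ => 0, 1, fun h => absurd h hx⟩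
  choose f ρ hfρ using hch
  obtain ⟨s, hsK, hs⟩ := hKc.elim_nhds_subcover
    (fun x => interior {y | ∀ᶠ y' in 𝓝 y, h y' = f x (π (F y'))}) fun x hx =>
      isOpen_interior.mem_nhds (mem_interior_iff_mem_nhds.2 (hfρ x hx).2.2.eventually_nhds)
  set N : Set E := ⋃ x ∈ s, interior {y | ∀ᶠ y' in 𝓝 y, h y' = f x (π (F y'))} with hN
  have hNo : IsOpen N := isOpen_biUnion fun _ _ => isOpen_interior
  have hCN : IsCompact (C \ N) := hC.diff hNo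
  have hcl : IsClosed (F '' (C \ N)) := (hCN.image hFc).isClosed
  have ht₁N : t₁ ∉ F '' (C \ N) := by
    rintro ⟨x, ⟨hx1, hx2⟩, hx3⟩
    exact hx2 (hs ⟨hx1, hx3⟩)
  have hev : ∀ᶠ t in 𝓝 t₁, t ∈ RV n p F ∧ t ∉ F '' (C \ N) ∧ ‖t‖ ≤ ‖t₁‖ + 1 := by
    have h3 : ∀ᶠ t in 𝓝 t₁, ‖t‖ < ‖t₁‖ + 1 :=
      continuous_norm.continuousAt.eventually (gt_mem_nhds (by linarith))
    filter_upwards [hD.ropen.mem_nhds ht₁, hcl.isOpen_compl.mem_nhds ht₁N, h3] with t h1 h2 h3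
      using ⟨h1, h2, h3.le⟩
  obtain ⟨ρ₀, hρ₀, hb₀⟩ := Metric.eventually_nhds_iff_ball.1 hev
  have hmin : ∃ ρ₁ > 0, ∀ x ∈ s, ρ₁ ≤ ρ x := by
    rcases s.eq_empty_or_nonempty with rfl | hne
    · exact ⟨1, one_pos, fun x hx => absurd hx (Finset.notMem_empty x)⟩
    · obtain ⟨x, hx, hx'⟩ := s.exists_min_image ρ hne
      exact ⟨ρ x, (hfρ x (hsK x hx)).1, hx'⟩
  obtain ⟨ρ₁, hρ₁, hmin⟩ := hmin
  let e := s.equivFin
  refine ⟨min ρ₀ ρ₁, lt_min hρ₀ hρ₁, fun t ht => (hb₀ t (ball_subset_ball (min_le_left _ _) ht)).1,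
    s.card, fun j => f (e.symm j), fun j b hb => ?_, fun j => ?_, fun y hy => ?_⟩
  · have h1 : ((e.symm j : s) : E) ∈ s := (e.symm j).2
    exact (hfρ _ (hsK _ h1)).2.1 b (ball_subset_ball ((min_le_right _ _).trans (hmin _ h1)) hb)
  · have h1 : ((e.symm j : s) : E) ∈ s := (e.symm j).2
    exact ⟨_, (hsK _ h1).2, (hfρ _ (hsK _ h1)).2.2⟩
  · obtain ⟨h1, h2, h3⟩ := hb₀ _ (ball_subset_ball (min_le_left _ _) hy)
    obtain ⟨g, hg, hgC⟩ := hcov y h3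
    have hFg : ∀ y, F (g • y) = F y := fun y => by rw [hP.equiv, hg, add_zero]
    have h4 : g • y ∈ N := by
      by_contra h5
      exact h2 ⟨g • y, ⟨hgC, h5⟩, hFg y⟩
    obtain ⟨x, hx, hxN⟩ := mem_iUnion₂.1 h4
    have h5' : g • y ∈ {y | ∀ᶠ y' in 𝓝 y, h y' = f x (π (F y'))} := interior_subset hxN
    have h5 : ∀ᶠ y' in 𝓝 (g • y), h y' = f x (π (F y')) := h5'
    obtain ⟨U, hU⟩ := heq g⁻¹
    refine ⟨e ⟨x, hx⟩, U, ?_⟩
    have h6 : Tendsto (fun y' => g • y') (𝓝 y) (𝓝 (g • y)) := (hp.cont g).tendsto y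
    filter_upwards [h6.eventually h5, (reg_open hp.cov hB).mem_nhds (h1 y rfl)] with y' h7 h8
    have h9 := hU (g • y') ((hP.reg_smul_iff hp g y').2 h8)
    rw [inv_smul_smul] at h9
    rw [h9, h7, hFg]
    simp [e]

end

end Vale.Agent.P284.H224
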