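import Vale.Agent.P284.H224.RatA

/-!
# P284 (helper224), RAT: the family of germs of a sheet function satisfies `GD`
-/

open scoped Manifold ContDiff Topology ENNReal
open Filter Set Metric MeasureTheory

noncomputable section

namespace Vale.Agent.P284.H224

open Vale.Agent.P272.K Vale.Agent.P284.H894.W Vale.Agent.P284.H894.G Vale.Agent.P284.H10
  Vale.Agent.P284.H494 Vale.Agent.P284.H279

section
variable {n : ℕ} {X : Type} [TopologicalSpace X] [ChartedSpace (Cm n) X] {E : Type}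
  [TopologicalSpace E] {p : E → X} {q r : ℕ} {F : E → Cm q}
  {W : Type} [NormedAddCommGroup W] [InnerProductSpace ℂ W] {h : E → W} {π : Cm q →L[ℂ] Cm r}

variable (n p F h π) in
/-- `f` is locally a germ of `h` over a regular value with the same image under `π`. -/
def GG (t : Cm q) (f : Cm q → W) : Prop :=
  ∃ (f' : Cm r → W) (y : E), F y ∈ RV n p F ∧ π (F y) = π t ∧ AnalyticAt ℂ f' (π t) ∧
    (∀ᶠ t' in 𝓝 t, f t' = f' (π t')) ∧ ∀ᶠ y' in 𝓝 y, h y' = f' (π (F y'))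

variable (n p F h π) in
/-- the values of `‖h‖²` over the regular values with the same image under `π` -/
def AA (t : Cm q) : Set ℝ := {x | ∃ y, F y ∈ RV n p F ∧ π (F y) = π t ∧ x = ‖h y‖ ^ 2}

variable (n p F h π) in
/-- the maximum of `‖h‖²` -/
def SS (t : Cm q) : ℝ := sSup (AA n p F h π t)

variable (n p F π) in
/-- the bad set -/
def DD : Set (Cm q) := {t | ∀ t₁ ∈ RV n p F, π t₁ ≠ π t}

theorem not_DD {t : Cm q} : t ∉ DD n p F π ↔ ∃ t₁ ∈ RV n p F, π t₁ = π t := by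
  simp [DD]

variable {Γ : Type} [Group Γ] [MulAction Γ E]
  {w : Chart n X → Cm n → Matrix (Fin n) (Fin n) ℂ} {c : Γ → Cm q}
  [IsManifold 𝓘(ℂ, Cm n) ω X] [CompleteSpace W]

omit [CompleteSpace W] in
/-- two germs of `h` at the same point agree -/
theorem germ_pi (hp : IsCoveringMap p) {B : ℝ} (hB : HolB p w F B) (hπ : Function.Surjective π)
    {z : E} (hz : Reg (n := n) p F z) {f g : Cm r → W} (hf : ∀ᶠ y in 𝓝 z, h y = f (π (F y)))
    (hg : ∀ᶠ y in 𝓝 z, h y = g (π (F y))) : f =ᶠ[𝓝 (π (F z))] g := by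
  have h1 := reg_map_nhds hp (holB_comp π hB) (reg_comp hp π hπ hB hz)
  have h1' : map (fun y => π (F y)) (𝓝 z) = 𝓝 (π (F z)) := h1
  rw [← h1']
  show ∀ᶠ y in 𝓝 z, f (π (F y)) = g (π (F y))
  filter_upwards [hf, hg] with y h2 h3
  rw [← h2, h3]

variable [T2Space X] [CompactSpace X] [ConnectedSpace E]

/-- the local structure of the family -/
theorem gg_struct (hq : 1 ≤ q) (hp : IsGalois Γ p)
    (hP : Per p w F c) (hex : ∃ y, Reg (n := n) p F y)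
    (hloc : ∀ y, Reg (n := n) p F y → ∃ f : Cm r → W, AnalyticAt ℂ f (π (F y)) ∧
      ∀ᶠ y' in 𝓝 y, h y' = f (π (F y')))
    (heq : ∀ g : Γ, ∃ U : W →ₗᵢ[ℂ] W, ∀ y, Reg (n := n) p F y → h (g • y) = U (h y))
    (hπ : Function.Surjective π)
    {t₀ : Cm q} (ht₀ : t₀ ∉ DD n p F π) :
    ∃ ρ > 0, ∃ (t₁ : Cm q) (m : ℕ) (f : Fin m → Cm r → W),
      (∀ t ∈ ball t₀ ρ, t₁ + (t - t₀) ∈ RV n p F ∧ π (t₁ + (t - t₀)) = π t) ∧
      (∀ j, ∀ t ∈ ball t₀ ρ, AnalyticAt ℂ (f j) (π t)) ∧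
      (∀ j, ∀ t ∈ ball t₀ ρ, GG n p F h π t (fun t' => f j (π t'))) ∧
      ∀ t ∈ ball t₀ ρ, ∀ g, GG n p F h π t g → ∃ (j : Fin m) (U : W →ₗᵢ[ℂ] W),
        (g =ᶠ[𝓝 t] fun t' => U (f j (π t'))) ∧
        ∀ t'' ∈ ball t₀ ρ, GG n p F h π t'' (fun t' => U (f j (π t'))) := by
  obtain ⟨B, hB⟩ := hP.hol
  obtain ⟨t₁, ht₁, hπt⟩ := not_DD.1 ht₀
  obtain ⟨ρ₁, hρ₁, hρR, m, f, hfa, hfx, hfy⟩ := unif hq hp hP hex hloc heq ht₁
  set M : ℝ := ‖π‖ + 1 with hM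
  have hM1 : 1 ≤ M := by have := norm_nonneg π; linarith
  have hM0 : 0 < M := by linarith
  have hρM : ρ₁ / M ≤ ρ₁ := div_le_self hρ₁.le hM1
  have hτ : ∀ t ∈ ball t₀ (ρ₁ / M), t₁ + (t - t₀) ∈ ball t₁ ρ₁ := by
    intro t ht
    rw [mem_ball, dist_eq_norm] at ht ⊢
    rw [add_sub_cancel_left]
    linarith
  have hπτ : ∀ t, π (t₁ + (t - t₀)) = π t := by
    intro t
    rw [map_add, map_sub, hπt]
    abel
  have hπb : ∀ t ∈ ball t₀ (ρ₁ / M), π t ∈ ball (π t₁) ρ₁ := by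
    intro t ht
    rw [mem_ball, dist_eq_norm] at ht ⊢
    rw [hπt, ← map_sub]
    calc ‖π (t - t₀)‖ ≤ ‖π‖ * ‖t - t₀‖ := π.le_opNorm _
      _ ≤ M * ‖t - t₀‖ := by
        gcongr
        linarith
      _ < M * (ρ₁ / M) := by gcongr
      _ = ρ₁ := by field_simp
  refine ⟨ρ₁ / M, div_pos hρ₁ hM0, t₁, m, f, fun t ht => ⟨hρR (hτ t ht), hπτ t⟩,
    fun j t ht => hfa j _ (hπb t ht), fun j t ht => ?_, fun t ht g hg => ?_⟩
  · obtain ⟨x, hx, hx'⟩ := hfx j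
    obtain ⟨z, hz1, hz2, hz3⟩ := move hq hp hP hex hloc heq (hfa j) (y := x) (by rw [hx]; exact ht₁)
      (by rw [hx]; exact mem_ball_self hρ₁) hx' (hρR (hτ t ht)) (by rw [hπτ]; exact hπb t ht)
    refine ⟨f j, z, by rw [hz1]; exact hρR (hτ t ht), by rw [hz1, hπτ], hfa j _ (hπb t ht),
      Eventually.of_forall fun _ => rfl, hz3⟩
  · obtain ⟨f', y, hy1, hy2, hf'a, hf'g, hf'h⟩ := hg
    obtain ⟨ε, hε, hεb⟩ := Metric.eventually_nhds_iff_ball.1 hf'a.eventually_analyticAt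
    obtain ⟨z, hz1, hz2, hz3⟩ := move hq hp hP hex hloc heq hεb (y := y) hy1
      (by rw [hy2]; exact mem_ball_self hε) hf'h (hρR (hτ t ht))
      (by rw [hπτ]; exact mem_ball_self hε)
    obtain ⟨j, U, hjU⟩ := hfy z (by rw [hz1]; exact hτ t ht)
    have h1 : f' =ᶠ[𝓝 (π (F z))] fun b => U (f j b) := germ_pi hp.cov hB hπ hz2 hz3 hjU
    rw [hz1, hπτ] at h1
    refine ⟨j, U, ?_, fun t'' ht'' => ?_⟩
    · filter_upwards [hf'g, π.continuous.continuousAt.eventually h1] with t' h2 h3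
      rw [h2, h3]
    · have hUa : ∀ b ∈ ball (π t₁) ρ₁, AnalyticAt ℂ (fun b => U (f j b)) b := fun b hb =>
        (U.toContinuousLinearMap.analyticAt _).comp (hfa j b hb)
      obtain ⟨z', hz1', hz2', hz3'⟩ := move hq hp hP hex hloc heq hUa (y := z)
        (by rw [hz1]; exact hρR (hτ t ht)) (by rw [hz1, hπτ]; exact hπb t ht) hjU
        (hρR (hτ t'' ht'')) (by rw [hπτ]; exact hπb t'' ht'')
      exact ⟨fun b => U (f j b), z', by rw [hz1']; exact hρR (hτ t'' ht''), by rw [hz1', hπτ],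
        hUa _ (hπb t'' ht''), Eventually.of_forall fun _ => rfl, hz3'⟩

/-- every value of `AA` comes from a germ -/
theorem gg_of_mem (hloc : ∀ y, Reg (n := n) p F y → ∃ f : Cm r → W, AnalyticAt ℂ f (π (F y)) ∧
      ∀ᶠ y' in 𝓝 y, h y' = f (π (F y'))) {t : Cm q} {y : E} (hy : F y ∈ RV n p F)
    (hyt : π (F y) = π t) : ∃ g, GG n p F h π t g ∧ g t = h y := by
  obtain ⟨f, h1, h2⟩ := hloc y (hy y rfl)
  refine ⟨fun t' => f (π t'), ⟨f, y, hy, hyt, by rw [← hyt]; exact h1,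
    Eventually.of_forall fun _ => rfl, h2⟩, ?_⟩
  show f (π t) = h y
  rw [← hyt]
  exact h2.self_of_nhds.symm

theorem gg_val {t : Cm q} {g : Cm q → W} (hg : GG n p F h π t g) :
    ∃ y, F y ∈ RV n p F ∧ π (F y) = π t ∧ g t = h y := by
  obtain ⟨f', y, h1, h2, -, h4, h5⟩ := hg
  refine ⟨y, h1, h2, ?_⟩
  rw [h4.self_of_nhds, h5.self_of_nhds, h2]

/-- **the family of germs of a sheet function** -/
theorem gd [ConnectedSpace X] (hq : 1 ≤ q) (hp : IsGalois Γ p)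
    (hP : Per p w F c) (hex : ∃ y, Reg (n := n) p F y)
    (hloc : ∀ y, Reg (n := n) p F y → ∃ f : Cm r → W, AnalyticAt ℂ f (π (F y)) ∧
      ∀ᶠ y' in 𝓝 y, h y' = f (π (F y')))
    (heq : ∀ g : Γ, ∃ U : W →ₗᵢ[ℂ] W, ∀ y, Reg (n := n) p F y → h (g • y) = U (h y))
    (hπ : Function.Surjective π) :
    GD (DD n p F π) (GG n p F h π) (SS n p F h π) ∧
      ∀ t ∉ DD n p F π, ∃ y, F y ∈ RV n p F ∧ π (F y) = π t ∧ SS n p F h π t = ‖h y‖ ^ 2 ∧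
        ∀ t₁ ∈ RV n p F, π t₁ = π t → ∃ y', F y' = t₁ ∧ ‖h y'‖ = ‖h y‖ := by
  obtain ⟨-, -, -, -, -, hne, -⟩ := rvStmt n q X w E Γ p hp F c hP hex
  have hfin : ∀ t₀ ∉ DD n p F π, (AA n p F h π t₀).Finite ∧ (AA n p F h π t₀).Nonempty := by
    intro t₀ ht₀
    obtain ⟨ρ, hρ, t₁, m, f, h1, h2, h3, h4⟩ := gg_struct hq hp hP hex hloc heq hπ ht₀
    have ht : t₀ ∈ ball t₀ ρ := mem_ball_self hρ
    refine ⟨(Set.finite_range fun j : Fin m => ‖f j (π t₀)‖ ^ 2).subset ?_, ?_⟩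
    · rintro _ ⟨y, hy, hyt, rfl⟩
      obtain ⟨g, hg, hgy⟩ := gg_of_mem hloc hy hyt
      obtain ⟨j, U, hj, -⟩ := h4 t₀ ht g hg
      refine ⟨j, ?_⟩
      show ‖f j (π t₀)‖ ^ 2 = ‖h y‖ ^ 2
      rw [← hgy, hj.self_of_nhds, U.norm_map]
    · obtain ⟨h5, h6⟩ := h1 t₀ ht
      obtain ⟨y, hy⟩ := hne _ h5
      have hy' : F y = t₁ + (t₀ - t₀) := hy
      exact ⟨_, y, by rw [hy']; exact h5, by rw [hy', h6], rfl⟩
  refine ⟨⟨?_, ?_, ?_⟩, ?_⟩
  · intro t₀ ht₀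
    obtain ⟨ρ, hρ, t₁, m, f, h1, h2, h3, h4⟩ := gg_struct hq hp hP hex hloc heq hπ ht₀
    refine ⟨ρ, hρ, fun t ht => not_DD.2 ⟨_, (h1 t ht).1, (h1 t ht).2⟩, fun t ht g hg => ?_⟩
    obtain ⟨j, U, hj, hj'⟩ := h4 t ht g hg
    refine ⟨fun t' => U (f j (π t')), fun t' ht' => ?_, hj', hj⟩
    have h5 : AnalyticAt ℂ (fun t' => U (f j (π t'))) t' :=
      (U.toContinuousLinearMap.analyticAt _).comp ((h2 j t' ht').fun_comp_of_eq (π.analyticAt _) rfl)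
    exact h5.differentiableAt.differentiableWithinAt
  · intro t₀ ht₀
    obtain ⟨ρ, hρ, t₁, m, f, h1, h2, h3, h4⟩ := gg_struct hq hp hP hex hloc heq hπ ht₀
    refine ⟨ρ, hρ, m, fun j t' => f j (π t'), h3, fun t ht => ?_⟩
    obtain ⟨hf, hn⟩ := hfin t (not_DD.2 ⟨_, (h1 t ht).1, (h1 t ht).2⟩)
    obtain ⟨y, hy, hyt, hS⟩ := hn.csSup_mem hf
    obtain ⟨g, hg, hgy⟩ := gg_of_mem hloc hy hyt
    obtain ⟨j, U, hj, -⟩ := h4 t ht g hg
    refine ⟨j, ?_⟩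
    show sSup (AA n p F h π t) = _
    rw [hS, ← hgy, hj.self_of_nhds, U.norm_map]
  · intro t ht f hf
    obtain ⟨y, h1, h2, h3⟩ := gg_val hf
    exact le_csSup (hfin t ht).1.bddAbove ⟨y, h1, h2, by rw [h3]⟩
  · intro t ht
    obtain ⟨y, hy, hyt, hS⟩ := (hfin t ht).2.csSup_mem (hfin t ht).1
    refine ⟨y, hy, hyt, hS, fun t₁ ht₁ h1 => ?_⟩
    obtain ⟨f, h2, h3⟩ := hloc y (hy y rfl)
    obtain ⟨ε, hε, hεb⟩ := Metric.eventually_nhds_iff_ball.1 h2.eventually_analyticAt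
    obtain ⟨z, hz1, hz2, hz3⟩ := move hq hp hP hex hloc heq hεb (y := y) hy
      (mem_ball_self hε) h3 ht₁ (by rw [h1, hyt]; exact mem_ball_self hε)
    refine ⟨z, hz1, ?_⟩
    rw [hz3.self_of_nhds, h3.self_of_nhds, hz1, h1, hyt]

end

end Vale.Agent.P284.H224
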