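import Vale.Agent.P284.H279.TPS
import Vale.Agent.P211.HK.LocSys
import Vale.Agent.P301.H949.Loc
import Vale.Agent.P299.H720.FlatLoc
import Vale.Agent.P272.K.AMP.Pole.Quad
import Vale.Agent.P272.K.C2.Wirt
import Vale.Agent.P268.Hol
import Mathlib.Analysis.Convex.Contractible

/-!
# P284 (helper224), MULT: theta functions of periodic divisors, from the potential
-/

open scoped ContDiff Topology ComplexConjugate
open Filter Set Metric

noncomputable section

namespace Vale.Agent.P284.H224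

open Vale.Agent.P272.K Vale.Agent.P284.H279

variable {q : ℕ}

/-! ### Divisors -/

section
variable {Λ : AddSubgroup (Cm q)} {Ed : (Cm q → ℂ) → Cm q → Prop}

theorem zs_iff (hE : PerDiv Λ Ed) {θ : Cm q → ℂ} {x : Cm q} (h : Ed θ x) :
    x ∈ zs Ed ↔ θ x = 0 := by
  constructor
  · rintro ⟨θ', h', h0⟩
    obtain ⟨u, -, -, hu⟩ := hE.unit θ θ' x h h'
    rw [hu.self_of_nhds, h0, mul_zero]
  · exact fun h0 => ⟨θ, h, h0⟩

theorem zs_ev (hE : PerDiv Λ Ed) {θ : Cm q → ℂ} {x : Cm q} (h : Ed θ x) :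
    ∀ᶠ z in 𝓝 x, (z ∈ zs Ed ↔ θ z = 0) := by
  filter_upwards [hE.opn θ x h] with z hz
  exact zs_iff hE hz

theorem zs_closed (hE : PerDiv Λ Ed) : IsClosed (zs Ed) := by
  rw [← isOpen_compl_iff, isOpen_iff_mem_nhds]
  intro x hx
  obtain ⟨θ, hθ⟩ := hE.ex x
  have h0 : θ x ≠ 0 := fun h => hx ((zs_iff hE hθ).2 h)
  filter_upwards [zs_ev hE hθ, (hE.ana θ x hθ).continuousAt.eventually_ne h0] with z h1 h2
  exact fun h => h2 (h1.1 h)

theorem zs_dense (hE : PerDiv Λ Ed) : Dense (zs Ed)ᶜ := by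
  intro x
  rw [mem_closure_iff_nhds]
  intro O hO
  obtain ⟨θ, hθ⟩ := hE.ex x
  by_contra hcon
  apply hE.ne θ x hθ
  filter_upwards [hO, zs_ev hE hθ] with z h1 h2
  by_contra h3
  exact hcon ⟨z, h1, fun h => h3 (h2.1 h)⟩

theorem zs_per (hE : PerDiv Λ Ed) {l : Cm q} (hl : l ∈ Λ) {x : Cm q} : x + l ∈ zs Ed ↔ x ∈ zs Ed := by
  have key : ∀ l ∈ Λ, ∀ x, x ∈ zs Ed → x + l ∈ zs Ed := by
    rintro l hl x ⟨θ, h1, h2⟩
    exact ⟨_, hE.per θ x h1 l hl, by simpa using h2⟩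
  refine ⟨fun h => ?_, key l hl x⟩
  have := key (-l) (Λ.neg_mem hl) _ h
  simpa using this

end

/-! ### Gluing -/

/-- equality up to a constant of modulus one; zeros are allowed -/
theorem const_of_norm_eq {f g : Cm q → ℂ} {U : Set (Cm q)} (hU : IsOpen U) (hc : IsPreconnected U)
    (hf : DifferentiableOn ℂ f U) (hg : DifferentiableOn ℂ g U) (h : ∀ z ∈ U, ‖g z‖ = ‖f z‖)
    {z₀ : Cm q} (hz₀ : z₀ ∈ U) (h0 : f z₀ ≠ 0) : ∀ z ∈ U, g z = g z₀ / f z₀ * f z := by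
  have hfa : AnalyticOnNhd ℂ f U := Vale.Agent.P268.analyticOnNhd_of_differentiableOn hU hf
  have hga : AnalyticOnNhd ℂ g U := Vale.Agent.P268.analyticOnNhd_of_differentiableOn hU hg
  have h1 : ∀ᶠ z in 𝓝 z₀, z ∈ U ∧ f z ≠ 0 :=
    (hU.eventually_mem hz₀).and ((hfa z₀ hz₀).continuousAt.eventually_ne h0)
  obtain ⟨r, hr, hb⟩ := Metric.eventually_nhds_iff_ball.1 h1
  have h2 := Vale.Agent.P299.H720.eq_const_mul_of_norm_eq isOpen_ball
    (convex_ball z₀ r).isPreconnected (hf.mono fun z hz => (hb z hz).1)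
    (hg.mono fun z hz => (hb z hz).1) (fun z hz => (hb z hz).2)
    (fun z hz => h z (hb z hz).1) (mem_ball_self hr)
  have h3 : AnalyticOnNhd ℂ (fun z => g z₀ / f z₀ * f z) U := fun z hz =>
    analyticAt_const.mul (hfa z hz)
  refine hga.eqOn_of_preconnected_of_eventuallyEq h3 hc hz₀ ?_
  filter_upwards [ball_mem_nhds z₀ hr] with z hz
  exact h2 z hz

/-- local solution of `‖θ‖² = e^Ψ` with zero set `D` -/
structure LocTh (Ψ : Cm q → ℝ) (D : Set (Cm q)) (x : Cm q) (r : ℝ) (θ : Cm q → ℂ) : Prop where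
  pos : 0 < r
  diff : DifferentiableOn ℂ θ (ball x r)
  norm : ∀ z ∈ ball x r, z ∉ D → ‖θ z‖ ^ 2 = Real.exp (Ψ z)
  zero : ∀ z ∈ ball x r, z ∈ D → θ z = 0

section
variable {Ψ : Cm q → ℝ} {D : Set (Cm q)}

theorem LocTh.ne {x z : Cm q} {r : ℝ} {θ : Cm q → ℂ} (h : LocTh Ψ D x r θ) (hz : z ∈ ball x r)
    (hzD : z ∉ D) : θ z ≠ 0 := by
  intro h0
  have := h.norm z hz hzD
  rw [h0, norm_zero, zero_pow two_ne_zero] at this
  exact (Real.exp_pos _).ne this

theorem LocTh.norm_eq {x y z : Cm q} {r s : ℝ} {θ η : Cm q → ℂ} (h : LocTh Ψ D x r θ)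
    (h' : LocTh Ψ D y s η) (hz : z ∈ ball x r) (hz' : z ∈ ball y s) : ‖θ z‖ = ‖η z‖ := by
  by_cases hD : z ∈ D
  · rw [h.zero z hz hD, h'.zero z hz' hD]
  · have := (h.norm z hz hD).trans (h'.norm z hz' hD).symm
    exact (pow_left_inj₀ (norm_nonneg _) (norm_nonneg _) two_ne_zero).1 this

/-- the germs of two local solutions agree up to a constant of modulus one -/
theorem LocTh.compare (hd : Dense Dᶜ) {x y z : Cm q} {r s : ℝ} {θ η : Cm q → ℂ}
    (h : LocTh Ψ D x r θ) (h' : LocTh Ψ D y s η) (hz : z ∈ ball x r) (hz' : z ∈ ball y s) :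
    ∃ u : ℂ, ‖u‖ = 1 ∧ ∀ᶠ z' in 𝓝 z, η z' = u * θ z' := by
  have h1 : ball x r ∩ ball y s ∈ 𝓝 z := inter_mem (isOpen_ball.mem_nhds hz)
    (isOpen_ball.mem_nhds hz')
  obtain ⟨ρ, hρ, hb⟩ := Metric.mem_nhds_iff.1 h1
  obtain ⟨z₀, hz₀, hz₀D⟩ := hd.inter_open_nonempty _ isOpen_ball ⟨z, mem_ball_self hρ⟩
  have h2 := const_of_norm_eq isOpen_ball (convex_ball z ρ).isPreconnected
    (h.diff.mono fun w hw => (hb hw).1) (h'.diff.mono fun w hw => (hb hw).2)
    (fun w hw => (h.norm_eq h' (hb hw).1 (hb hw).2).symm) hz₀ (h.ne (hb hz₀).1 hz₀D)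
  refine ⟨η z₀ / θ z₀, ?_, ?_⟩
  · rw [norm_div, h.norm_eq h' (hb hz₀).1 (hb hz₀).2, div_self]
    exact norm_ne_zero_iff.2 (h'.ne (hb hz₀).2 hz₀D)
  · filter_upwards [ball_mem_nhds z hρ] with w hw
    exact h2 w hw

/-- a constant is determined by a multiple of a local solution -/
theorem LocTh.cancel (hd : Dense Dᶜ) {x z : Cm q} {r : ℝ} {θ : Cm q → ℂ}
    (h : LocTh Ψ D x r θ) (hz : z ∈ ball x r) {a b : ℂ}
    (hab : ∀ᶠ z' in 𝓝 z, a * θ z' = b * θ z') : a = b := by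
  obtain ⟨O, hO, hOo, hzO⟩ := _root_.eventually_nhds_iff.1 (hab.and (isOpen_ball.eventually_mem hz))
  obtain ⟨z₀, hz₀, hz₀D⟩ := hd.inter_open_nonempty _ hOo ⟨z, hzO⟩
  exact mul_right_cancel₀ (h.ne (hO z₀ hz₀).2 hz₀D) (hO z₀ hz₀).1

/-- **gluing** on `ℂ^q` -/
theorem exists_glue (hd : Dense Dᶜ) (hloc : ∀ x, ∃ (r : ℝ) (θ : Cm q → ℂ), LocTh Ψ D x r θ) :
    ∃ Θ : Cm q → ℂ, Differentiable ℂ Θ ∧ (∀ z, z ∉ D → ‖Θ z‖ ^ 2 = Real.exp (Ψ z)) ∧
      ∀ z ∈ D, Θ z = 0 := by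
  choose r θ hθ using hloc
  have hself : ∀ x, x ∈ ball x (r x) := fun x => mem_ball_self (hθ x).pos
  let Par : (p : Cm q) → ((z : Cm q) → ℂ) → Prop := fun p s =>
    ∀ᶠ y in 𝓝 p, ∀ᶠ z in 𝓝 y, s y * θ y z = s p * θ p z
  have hball : ∀ p, ∀ᶠ y in 𝓝 p, y ∈ ball p (r p) := fun p => isOpen_ball.mem_nhds (hself p)
  have hL : Vale.Agent.P211.HK.LocSys (F := fun _ : Cm q => ℂ) Par := by
    refine ⟨?_, ?_, ?_, ?_, ?_⟩
    · intro p s hs
      have hs' : ∀ᶠ y in 𝓝 p, ∀ᶠ z in 𝓝 y, s y * θ y z = s p * θ p z := hs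
      filter_upwards [hs'.eventually_nhds] with y hy
      show ∀ᶠ y' in 𝓝 y, ∀ᶠ z in 𝓝 y', s y' * θ y' z = s y * θ y z
      filter_upwards [hy, (hy.self_of_nhds).eventually_nhds] with y' h1 h2
      filter_upwards [h1, h2] with z h3 h4
      rw [h3, h4]
    · intro p s s' hs hs' he
      have h1 : ∀ᶠ y in 𝓝 p, ∀ᶠ z in 𝓝 y, s y * θ y z = s p * θ p z := hs
      have h2 : ∀ᶠ y in 𝓝 p, ∀ᶠ z in 𝓝 y, s' y * θ y z = s' p * θ p z := hs'
      filter_upwards [h1, h2] with y h3 h4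
      refine (hθ y).cancel hd (hself y) ?_
      filter_upwards [h3, h4] with z h5 h6
      rw [h5, h6, he]
    · intro p s s' hs hs' hf
      have h1 : ∀ᶠ y in 𝓝 p, ∀ᶠ z in 𝓝 y, s y * θ y z = s p * θ p z := hs
      have h2 : ∀ᶠ y in 𝓝 p, ∀ᶠ z in 𝓝 y, s' y * θ y z = s' p * θ p z := hs'
      obtain ⟨y, h3, h4, h5, h6⟩ := (hf.and_eventually (h1.and (h2.and (hball p)))).exists
      refine (hθ p).cancel hd h6 ?_
      filter_upwards [h4, h5] with z h7 h8
      rw [← h7, ← h8, h3]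
    · intro p s s' hs he
      have h1 : ∀ᶠ y in 𝓝 p, ∀ᶠ z in 𝓝 y, s y * θ y z = s p * θ p z := hs
      show ∀ᶠ y in 𝓝 p, ∀ᶠ z in 𝓝 y, s' y * θ y z = s' p * θ p z
      filter_upwards [h1, he] with y h2 h3
      rw [← h3, ← he.self_of_nhds]
      exact h2
    · intro p
      refine ⟨ball p (r p), isOpen_ball.mem_nhds (hself p), fun y hy v => ?_⟩
      have hu : ∀ y' : Cm q, ∃ u : ℂ, y' ∈ ball p (r p) → u ≠ 0 ∧
          ∀ᶠ z in 𝓝 y', θ y' z = u * θ p z := by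
        intro y'
        by_cases h : y' ∈ ball p (r p)
        · obtain ⟨u, hu, hu'⟩ := (hθ p).compare hd (hθ y') h (hself y')
          exact ⟨u, fun _ => ⟨by rw [← norm_ne_zero_iff, hu]; exact one_ne_zero, hu'⟩⟩
        · exact ⟨0, fun h' => absurd h' h⟩
      choose u hu using hu
      refine ⟨fun y' => v * u y / u y', ?_, fun y' hy' => ?_⟩
      · have := (hu y hy).1
        show v * u y / u y = v
        field_simp
      · show ∀ᶠ y'' in 𝓝 y', ∀ᶠ z in 𝓝 y'', v * u y / u y'' * θ y'' z = v * u y / u y' * θ y' z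
        filter_upwards [isOpen_ball.mem_nhds hy', (hu y' hy').2.eventually_nhds] with y'' h1 h2
        filter_upwards [(hu y'' h1).2, h2] with z h3 h4
        rw [h3, h4]
        have h5 := (hu y'' h1).1
        have h6 := (hu y' hy').1
        field_simp
  obtain ⟨s, ⟨hs0, hs⟩, -⟩ := hL.existsUnique (0 : Cm q) (1 : ℂ)
  have hs' : ∀ p, ∀ᶠ y in 𝓝 p, ∀ᶠ z in 𝓝 y, s y * θ y z = s p * θ p z := hs
  have hnorm : ∀ p, ‖s p‖ = 1 := by
    have hlc : IsLocallyConstant fun p => ‖s p‖ := by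
      rw [IsLocallyConstant.iff_eventually_eq]
      intro p
      filter_upwards [hs' p, hball p] with y h1 h2
      obtain ⟨u, hu, hu'⟩ := (hθ p).compare hd (hθ y) h2 (hself y)
      have h3 : s y * u = s p := by
        refine (hθ p).cancel hd h2 ?_
        filter_upwards [h1, hu'] with z h4 h5
        rw [← h4, h5]; ring
      rw [← h3, norm_mul, hu, mul_one]
    intro p
    rw [hlc.apply_eq_of_preconnectedSpace p 0, hs0, norm_one]
  have hev : ∀ p, ∀ᶠ y in 𝓝 p, s y * θ y y = s p * θ p y := fun p =>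
    (hs' p).mono fun y hy => hy.self_of_nhds
  refine ⟨fun z => s z * θ z z, fun p => ?_, fun z hz => ?_, fun z hz => ?_⟩
  · have h1 : DifferentiableAt ℂ (θ p) p :=
      ((hθ p).diff p (hself p)).differentiableAt (isOpen_ball.mem_nhds (hself p))
    exact (h1.const_mul (s p)).congr_of_eventuallyEq (hev p)
  · show ‖s z * θ z z‖ ^ 2 = _
    rw [norm_mul, hnorm, one_mul]
    exact (hθ z).norm z (hself z) hz
  · show s z * θ z z = 0
    rw [(hθ z).zero z (hself z) hz, mul_zero]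

end

/-! ### The quadratic form -/

/-- `Re Σ H_jk z_j conj z_k` -/
def Rq (H : Matrix (Fin q) (Fin q) ℂ) (z : Cm q) : ℝ := (∑ j, ∑ k, H j k * z j * conj (z k)).re

theorem Rq_eq (H : Matrix (Fin q) (Fin q) ℂ) (z : Cm q) : Rq H z = AMP.Pole.qf H (z - 0) := by
  rw [sub_zero]
  rfl

/-- the linear form of the factor of automorphy -/
def Aq (H : Matrix (Fin q) (Fin q) ℂ) (l : Cm q) : Cm q →L[ℂ] ℂ :=
  ∑ j, (∑ k, (H j k + conj (H k j)) * conj (l k) / 2) • ContinuousLinearMap.proj (R := ℂ) j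

theorem Aq_apply (H : Matrix (Fin q) (Fin q) ℂ) (l z : Cm q) :
    Aq H l z = ∑ j, (∑ k, (H j k + conj (H k j)) * conj (l k) / 2) * z j := by
  simp [Aq]

theorem Rq_add (H : Matrix (Fin q) (Fin q) ℂ) (z l : Cm q) :
    Rq H (z + l) = Rq H z + (2 * Aq H l z).re + Rq H l := by
  have h1 : (2 * Aq H l z) = ∑ j, ∑ k, (H j k * z j * conj (l k)) +
      ∑ j, ∑ k, conj (H k j) * z j * conj (l k) := by
    rw [Aq_apply, Finset.mul_sum, ← Finset.sum_add_distrib]
    refine Finset.sum_congr rfl fun j _ => ?_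
    rw [Finset.sum_mul, Finset.mul_sum, ← Finset.sum_add_distrib]
    refine Finset.sum_congr rfl fun k _ => ?_
    ring
  have h2 : (∑ j, ∑ k, conj (H k j) * z j * conj (l k)).re =
      (∑ j, ∑ k, H j k * l j * conj (z k)).re := by
    rw [← Complex.conj_re]
    congr 1
    rw [map_sum, Finset.sum_comm]
    refine Finset.sum_congr rfl fun j _ => ?_
    rw [map_sum]
    refine Finset.sum_congr rfl fun k _ => ?_
    simp only [map_mul, Complex.conj_conj]
    ring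
  have h3 : (∑ j, ∑ k, H j k * (z + l) j * conj ((z + l) k)) =
      (∑ j, ∑ k, H j k * z j * conj (z k)) + (∑ j, ∑ k, H j k * z j * conj (l k)) +
      (∑ j, ∑ k, H j k * l j * conj (z k)) + ∑ j, ∑ k, H j k * l j * conj (l k) := by
    simp only [← Finset.sum_add_distrib]
    refine Finset.sum_congr rfl fun j _ => Finset.sum_congr rfl fun k _ => ?_
    simp only [Pi.add_apply, map_add]
    ring
  have h4 := congrArg Complex.re h3
  have h5 := congrArg Complex.re h1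
  simp only [Complex.add_re] at h4
  rw [Complex.add_re, h2] at h5
  unfold Rq
  linarith

/-! ### Theta functions -/

/-- `Θ` is a theta function with zero set `D` for the group `Λ`. -/
structure Theta (Λ : AddSubgroup (Cm q)) (D : Set (Cm q)) (Θ : Cm q → ℂ) : Prop where
  diff : Differentiable ℂ Θ
  zero : ∀ z, Θ z = 0 ↔ z ∈ D
  ne : ∃ z, z ∉ D
  per : ∀ l ∈ Λ, ∃ (A : Cm q →L[ℂ] ℂ) (a : ℂ), ∀ z, Θ (z + l) = a * Complex.exp (A z) * Θ z

theorem exists_theta (hpot : PotStmt) {Λ : AddSubgroup (Cm q)} {Ed : (Cm q → ℂ) → Cm q → Prop}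
    (hE : PerDiv Λ Ed) (hc : Coco Λ) : ∃ Θ : Cm q → ℂ, Theta Λ (zs Ed) Θ := by
  obtain ⟨ψ, H, hper, hψ⟩ := hpot q Λ Ed hE hc
  have hd := zs_dense hE
  have hloc : ∀ x, ∃ (r : ℝ) (θ : Cm q → ℂ), LocTh (fun z => ψ z + Rq H z) (zs Ed) x r θ := by
    intro x
    obtain ⟨θ, hθ⟩ := hE.ex x
    obtain ⟨g, hg, hg'⟩ := hψ θ x hθ
    have hHh : H.IsHermitian := by
      have h1 := hg.self_of_nhds
      have h2 : (cHess g x).IsHermitian := C2.cHess_isHermitian (h1.1.of_le (by norm_cast))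
      rw [h1.2] at h2
      simpa using h2.neg
    have hev : ∀ᶠ z in 𝓝 x, (ContDiffAt ℝ ∞ g z ∧ cHess g z = -H) ∧
        (θ z ≠ 0 → ψ z = Real.log (‖θ z‖ ^ 2) + g z) ∧ (z ∈ zs Ed ↔ θ z = 0) ∧
        AnalyticAt ℂ θ z :=
      hg.and (hg'.and ((zs_ev hE hθ).and (hE.ana θ x hθ).eventually_analyticAt))
    obtain ⟨r, hr, hb⟩ := Metric.eventually_nhds_iff_ball.1 hev
    have hR : ∀ z, ContDiffAt ℝ ∞ (Rq H) z ∧ cHess (Rq H) z = H := by
      intro z
      have h1 : Rq H = fun y => AMP.Pole.qf H (y - 0) := by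
        funext y; exact Rq_eq H y
      rw [h1]
      exact ⟨AMP.Pole.contDiff_qf.contDiffAt, AMP.Pole.cHess_qf hHh⟩
    obtain ⟨f, hf, hfr⟩ := Vale.Agent.P301.H949.exists_re (φ := fun z => g z + Rq H z)
      isOpen_ball (convex_ball x r)
      (fun z hz => ((hb z hz).1.1.add (hR z).1).of_le (by norm_cast)) (fun z hz => by
        rw [C2.cHess_add ((hb z hz).1.1.of_le (by norm_cast)) ((hR z).1.of_le (by norm_cast)),
          (hb z hz).1.2, (hR z).2, neg_add_cancel])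
    refine ⟨r, fun z => θ z * Complex.exp (f z / 2), hr, ?_, ?_, ?_⟩
    · intro z hz
      have h3 : DifferentiableWithinAt ℂ (fun y => Complex.exp (f y / 2)) (ball x r) z :=
        ((hf z hz).mul_const (2⁻¹ : ℂ)).cexp
      exact ((hb z hz).2.2.2.differentiableAt.differentiableWithinAt).mul h3
    · intro z hz hzD
      have h0 : θ z ≠ 0 := fun h => hzD ((hb z hz).2.2.1.2 h)
      rw [norm_mul, mul_pow, Complex.norm_exp, ← Real.exp_nat_mul]
      have h1 : ((2 : ℕ) : ℝ) * (f z / 2).re = g z + Rq H z := by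
        rw [← hfr z hz]
        simp
        ring
      have h3 : Real.exp (Real.log (‖θ z‖ ^ 2) + g z + Rq H z) =
          ‖θ z‖ ^ 2 * Real.exp (g z + Rq H z) := by
        rw [add_assoc, Real.exp_add, Real.exp_log (by have := norm_pos_iff.2 h0; positivity)]
      rw [h1, (hb z hz).2.1 h0, h3]
    · intro z hz hzD
      show θ z * _ = 0
      rw [(hb z hz).2.2.1.1 hzD, zero_mul]
  obtain ⟨Θ, h1, h2, h3⟩ := exists_glue hd hloc
  have hne : ∀ z, z ∉ zs Ed → Θ z ≠ 0 := by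
    intro z hz h0
    have := h2 z hz
    rw [h0, norm_zero, zero_pow two_ne_zero] at this
    exact (Real.exp_pos _).ne this
  obtain ⟨z₀, hz₀⟩ := hd.nonempty
  refine ⟨Θ, h1, fun z => ⟨fun h => ?_, h3 z⟩, ⟨z₀, hz₀⟩, fun l hl => ?_⟩
  · by_contra hz
    exact hne z hz h
  · set a : ℝ := Real.exp (Rq H l / 2) with ha
    set g : Cm q → ℂ := fun z => Θ (z + l) with hg
    set f : Cm q → ℂ := fun z => (a : ℂ) * Complex.exp (Aq H l z) * Θ z with hf
    have hfd : Differentiable ℂ f :=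
      ((differentiable_const _).mul (Aq H l).differentiable.cexp).mul h1
    have hgd : Differentiable ℂ g := h1.comp (differentiable_id.add_const l)
    have hnorm : ∀ z, ‖g z‖ = ‖f z‖ := by
      intro z
      by_cases hz : z ∈ zs Ed
      · have h4 : g z = 0 := h3 _ ((zs_per hE hl).2 hz)
        have h5 : f z = 0 := by
          show (a : ℂ) * Complex.exp (Aq H l z) * Θ z = 0
          rw [h3 z hz, mul_zero]
        rw [h4, h5]
      · have hz' : z + l ∉ zs Ed := fun h => hz ((zs_per hE hl).1 h)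
        refine (pow_left_inj₀ (norm_nonneg _) (norm_nonneg _) two_ne_zero).1 ?_
        show ‖Θ (z + l)‖ ^ 2 = ‖(a : ℂ) * Complex.exp (Aq H l z) * Θ z‖ ^ 2
        rw [h2 _ hz', norm_mul, mul_pow, h2 _ hz, norm_mul, mul_pow, Complex.norm_exp,
          Complex.norm_real, Real.norm_eq_abs, abs_of_pos (Real.exp_pos _),
          ← Real.exp_nat_mul, ← Real.exp_nat_mul, ← Real.exp_add, ← Real.exp_add, hper l hl,
          Rq_add]
        congr 1
        simp only [Complex.mul_re, Complex.re_ofNat, Complex.im_ofNat, zero_mul, sub_zero]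
        push_cast
        ring
    have hf0 : f z₀ ≠ 0 := by
      refine mul_ne_zero (mul_ne_zero ?_ (Complex.exp_ne_zero _)) (hne z₀ hz₀)
      exact_mod_cast (Real.exp_pos _).ne'
    have h6 := const_of_norm_eq isOpen_univ isPreconnected_univ hfd.differentiableOn
      hgd.differentiableOn (fun z _ => hnorm z) (mem_univ z₀) hf0
    refine ⟨Aq H l, g z₀ / f z₀ * a, fun z => ?_⟩
    have h7 := h6 z (mem_univ z)
    show g z = _
    rw [h7]
    show g z₀ / f z₀ * ((a : ℂ) * Complex.exp (Aq H l z) * Θ z) = _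
    ring

end Vale.Agent.P284.H224
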